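import Vale.Agent.P284.H894.V.Spec
import Vale.Agent.P284.H513.Mol4
import Vale.Agent.P272.K.INT.Local

/-! P284 theorem K, block K5: Jensen's inequality and the mean value inequality. -/

open scoped ContDiff ComplexOrder ComplexConjugate Topology
open MeasureTheory Set Filter Metric

noncomputable section

namespace Vale.Agent.P284.H119.K

open Vale.Agent.P272.K Vale.Agent.P272.K.INT Vale.Agent.P284.H894.V Vale.Agent.P284.H513.V

variable {n : ℕ}

lemma cHess_congr' {f g : Cm n → ℝ} {z : Cm n} (h : f =ᶠ[𝓝 z] g) : cHess f z = cHess g z := by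
  have h1 : ∀ᶠ y in 𝓝 z, f =ᶠ[𝓝 y] g := h.eventually_nhds
  ext i j
  simp only [cHess, Matrix.of_apply]
  refine INT.dz_congr ?_
  filter_upwards [h1] with y hy
  refine INT.dzb_congr ?_
  filter_upwards [hy] with x hx
  rw [hx]

/-- the mean value inequality for a function with `Re tr ∂∂̄φ ≥ -Λ` near `z₀` -/
lemma submean {δ : ℝ} {η Θ : Cm n → ℝ} (m : Mol δ η Θ) {φ g : Cm n → ℝ} {z₀ : Cm n}
    {Lam : ℝ} (hg : ContDiff ℝ 4 g)
    (hfg : ∀ z ∈ closedBall z₀ δ, φ =ᶠ[𝓝 z] g)
    (htr : ∀ z ∈ closedBall z₀ δ, -Lam ≤ (∑ j, cHess φ z j j).re) (hL : 0 ≤ Lam) :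
    g z₀ ≤ mv η g z₀ + ∫ p in KK n δ, Θ p.2 * (2 * Lam) := by
  have hH : ∀ j, Continuous fun y => cHess g y j j := fun j =>
    (contDiff_cHess (k := 0) (hg.of_le (by norm_num)) j j).continuous
  have h0 := m.rep0 hg z₀
  have cW : Continuous fun p : ℝ × Cm n => (Θ p.2 : ℂ) *
      (2 * p.1 * ∑ j, cHess g (z₀ + p.1 • p.2) j j) := by
    refine (Complex.continuous_ofReal.comp (m.th1.continuous.comp continuous_snd)).mul
      ((continuous_const.mul (Complex.continuous_ofReal.comp continuous_fst)).mul ?_)
    exact continuous_finsetSum _ fun j _ => (hH j).comp (by fun_prop)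
  have h1 := congrArg Complex.re h0
  rw [Complex.sub_re, ← mv_ofReal, Complex.ofReal_re, Complex.ofReal_re] at h1
  have iW : Integrable (fun p : ℝ × Cm n => (Θ p.2 : ℂ) *
      (2 * p.1 * ∑ j, cHess g (z₀ + p.1 • p.2) j j)) (volume.restrict (KK n δ)) :=
    (cW.continuousOn.integrableOn_compact (isCompact_KK n δ))
  have h2 : (∫ p in KK n δ, (Θ p.2 : ℂ) * (2 * p.1 * ∑ j, cHess g (z₀ + p.1 • p.2) j j)).re =
      ∫ p in KK n δ, Θ p.2 * (2 * p.1 * (∑ j, cHess g (z₀ + p.1 • p.2) j j).re) := by
    have := integral_re (𝕜 := ℂ) iW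
    rw [show (∫ p in KK n δ, (Θ p.2 : ℂ) * (2 * p.1 * ∑ j, cHess g (z₀ + p.1 • p.2) j j)).re =
      RCLike.re (∫ p in KK n δ, (Θ p.2 : ℂ) * (2 * p.1 * ∑ j, cHess g (z₀ + p.1 • p.2) j j)) from rfl,
      ← this]
    refine integral_congr_ae (Eventually.of_forall fun p => ?_)
    simp only [RCLike.re_to_complex]
    rw [Complex.re_ofReal_mul]
    congr 1
    rw [show (2 * (p.1 : ℂ)) = ((2 * p.1 : ℝ) : ℂ) by push_cast; ring, Complex.re_ofReal_mul]
  have h3 : -∫ p in KK n δ, Θ p.2 * (2 * Lam) ≤
      ∫ p in KK n δ, Θ p.2 * (2 * p.1 * (∑ j, cHess g (z₀ + p.1 • p.2) j j).re) := by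
    rw [← integral_neg]
    refine setIntegral_mono_on ?_ ?_ (measurableSet_KK n δ) ?_
    · refine ContinuousOn.integrableOn_compact (isCompact_KK n δ) (Continuous.continuousOn ?_)
      exact ((m.th1.continuous.comp continuous_snd).mul continuous_const).neg
    · refine ContinuousOn.integrableOn_compact (isCompact_KK n δ) (Continuous.continuousOn ?_)
      refine (m.th1.continuous.comp continuous_snd).mul ((by fun_prop : Continuous fun
        p : ℝ × Cm n => 2 * p.1).mul ?_)
      exact Complex.continuous_re.comp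
        (continuous_finsetSum _ fun j _ => (hH j).comp (by fun_prop))
    · intro p hp
      obtain ⟨hp1, hp2⟩ := hp
      have hmem : z₀ + p.1 • p.2 ∈ closedBall z₀ δ := by
        rw [mem_closedBall, dist_eq_norm, add_sub_cancel_left, norm_smul, Real.norm_eq_abs,
          abs_of_nonneg hp1.1]
        rw [mem_closedBall, dist_zero_right] at hp2
        calc p.1 * ‖p.2‖ ≤ 1 * ‖p.2‖ := mul_le_mul_of_nonneg_right hp1.2 (norm_nonneg _)
          _ ≤ δ := by rw [one_mul]; exact hp2
      have e := htr _ hmem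
      rw [cHess_congr' (hfg _ hmem)] at e
      set T := (∑ j, cHess g (z₀ + p.1 • p.2) j j).re
      have hth := m.thn p.2
      rw [← mul_neg]
      refine mul_le_mul_of_nonneg_left ?_ hth
      nlinarith [hp1.1, hp1.2, mul_nonneg hp1.1 (by linarith : 0 ≤ T + Lam),
        mul_nonneg (by linarith [hp1.2] : 0 ≤ 1 - p.1) hL]
  rw [h2] at h1
  linarith

/-- **K5** -/
theorem k5 : ∀ (n : ℕ) (c : Cm n) (r s R : ℝ), 0 < r → r < s → s < R →
    ∀ w : Cm n → Matrix (Fin n) (Fin n) ℂ,
    KU (ball c R) w → ∃ B : ℝ, ∀ φ : Cm n → ℝ,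
    (∀ z ∈ ball c R, ContDiffAt ℝ ∞ φ z) → (∀ z ∈ ball c R, φ z ≤ 0) →
    (∀ z ∈ ball c R, (w z + cHess φ z).PosDef) →
    ∀ M : ℝ, 0 < M → ∫ z in ball c s, Real.exp (φ z) * vol w z ≤ M →
    ∀ z ∈ ball c r, φ z ≤ Real.log M + B := by
  intro n c r s R hr hrs hsR w hw
  have hs : 0 < s := hr.trans hrs
  have hsub : closedBall c s ⊆ ball c R := closedBall_subset_ball hsR
  have hcv : ContinuousOn (vol w) (closedBall c s) := by
    intro z hz
    refine ContinuousAt.continuousWithinAt ?_
    exact Complex.continuous_re.continuousAt.comp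
      (contDiffAt_det (k := ∞) fun i j => hw.smooth z (hsub hz) i j).continuousAt
  have hct : ContinuousOn (fun z => (∑ j, w z j j).re) (closedBall c s) := by
    intro z hz
    refine ContinuousAt.continuousWithinAt ?_
    refine Complex.continuous_re.continuousAt.comp ?_
    exact tendsto_finsetSum _ fun j _ => (hw.smooth z (hsub hz) j j).continuousAt
  have hne : (closedBall c s).Nonempty := ⟨c, mem_closedBall_self hs.le⟩
  obtain ⟨z1, hz1, hmin⟩ := (isCompact_closedBall c s).exists_isMinOn hne hcv
  obtain ⟨z2, hz2, hmax⟩ := (isCompact_closedBall c s).exists_isMaxOn hne hct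
  set lam : ℝ := vol w z1 with hlam
  have hlam0 : 0 < lam := by
    have := (hw.pos z1 (hsub hz1)).det_pos
    exact (Complex.pos_iff.1 this).1
  have hvol : ∀ z ∈ closedBall c s, lam ≤ vol w z := fun z hz => hmin hz
  set Lam : ℝ := |(∑ j, w z2 j j).re| with hLam
  have hLam0 : 0 ≤ Lam := abs_nonneg _
  have htr : ∀ z ∈ closedBall c s, (∑ j, w z j j).re ≤ Lam := fun z hz =>
    (hmax hz).trans (le_abs_self _)
  set δ : ℝ := (s - r) / 2 with hδd
  have hδ : 0 < δ := by rw [hδd]; linarith
  obtain ⟨η, Θ, m⟩ := exists_mol n hδ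
  have hη : Continuous η := m.smooth.continuous
  obtain ⟨M0, hM0'⟩ := hη.bounded_above_of_compact_support m.hcs
  have hM0 : ∀ t, η t ≤ |M0| + 1 := fun t => by
    linarith [(Real.le_norm_self _).trans (hM0' t), le_abs_self M0]
  set D : ℝ := |M0| + 1 with hD
  have hD0 : 0 < D := by positivity
  set K0 : ℝ := ∫ p in KK n δ, Θ p.2 * (2 * Lam) with hK0
  refine ⟨Real.log (D / lam) + K0, ?_⟩
  intro φ hφ _ hpos M hM hint z₀ hz₀
  rw [mem_ball] at hz₀
  have hball : ∀ z, dist z z₀ ≤ δ → z ∈ ball c s := by
    intro z hz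
    rw [mem_ball]
    calc dist z c ≤ dist z z₀ + dist z₀ c := dist_triangle _ _ _
      _ < s := by rw [hδd] at hz; linarith
  have hball' : ∀ z ∈ closedBall z₀ δ, z ∈ ball c R := fun z hz =>
    hsub (ball_subset_closedBall (hball z hz))
  obtain ⟨g, hg, hgc, hfg⟩ := exists_ext hδ (fun z hz => hφ z (hball' z hz))
  have h1 : g z₀ ≤ mv η g z₀ + K0 := by
    refine submean m hg hfg ?_ hLam0
    intro z hz
    have h2 := hpos z (hball' z hz)
    have h3 : 0 ≤ (∑ j, (w z + cHess φ z) j j).re := by
      rw [Complex.re_sum]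
      refine Finset.sum_nonneg fun j _ => ?_
      exact (Complex.pos_iff.1 (h2.diag_pos (i := j))).1.le
    have h4 := htr z (ball_subset_closedBall (hball z hz))
    simp only [Matrix.add_apply, Finset.sum_add_distrib, Complex.add_re] at h3
    linarith
  have hz0 : φ z₀ = g z₀ := (hfg z₀ (mem_closedBall_self hδ.le)).eq_of_nhds
  -- Jensen
  set m0 : ℝ := Real.log M + Real.log (D / lam) with hm0
  have hexp : Real.exp m0 = M * (D / lam) := by
    rw [hm0, Real.exp_add, Real.exp_log hM, Real.exp_log (by positivity)]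
  have i1 : Integrable fun t => η t * g (z₀ + t) :=
    (hη.mul (hg.continuous.comp (by fun_prop))).integrable_of_hasCompactSupport m.hcs.mul_right
  have i2 : Integrable fun t => η t * Real.exp (g (z₀ + t)) :=
    (hη.mul (Real.continuous_exp.comp (hg.continuous.comp (by fun_prop)))).integrable_of_hasCompactSupport
      m.hcs.mul_right
  have i3 : Integrable η := hη.integrable_of_hasCompactSupport m.hcs
  have h5 : ∫ t, η t * Real.exp (g (z₀ + t)) ≤ (D / lam) * M := by
    have e1 : ∫ t, η t * Real.exp (g (z₀ + t)) = ∫ y, η (y - z₀) * Real.exp (g y) := by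
      rw [← integral_add_left_eq_self (fun y => η (y - z₀) * Real.exp (g y)) z₀]
      simp only [add_sub_cancel_left]
    rw [e1]
    have hint2 : IntegrableOn (fun z => (D / lam) * (Real.exp (φ z) * vol w z)) (ball c s) := by
      refine IntegrableOn.mono_set ?_ ball_subset_closedBall
      refine ContinuousOn.integrableOn_compact (isCompact_closedBall c s) ?_
      refine continuousOn_const.mul (ContinuousOn.mul ?_ hcv)
      exact Real.continuous_exp.comp_continuousOn fun z hz =>
        (hφ z (hsub hz)).continuousAt.continuousWithinAt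
    calc ∫ y, η (y - z₀) * Real.exp (g y)
        ≤ ∫ y, (ball c s).indicator (fun z => (D / lam) * (Real.exp (φ z) * vol w z)) y := by
          refine integral_mono_of_nonneg (Eventually.of_forall fun y =>
            mul_nonneg (m.nonneg _) (Real.exp_pos _).le) (hint2.integrable_indicator
              measurableSet_ball) (Eventually.of_forall fun y => ?_)
          change η (y - z₀) * Real.exp (g y) ≤ _
          by_cases hy : δ ≤ ‖y - z₀‖
          · rw [m.zero _ hy, zero_mul]
            refine indicator_nonneg (fun z hz => ?_) y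
            have := hvol z (ball_subset_closedBall hz)
            have : 0 ≤ vol w z := hlam0.le.trans this
            positivity
          · push Not at hy
            have hy1 : dist y z₀ ≤ δ := by rw [dist_eq_norm]; exact hy.le
            have hy2 := hball y hy1
            rw [indicator_of_mem hy2]
            have e2 : φ y = g y := (hfg y hy1).eq_of_nhds
            rw [← e2]
            have e3 := hvol y (ball_subset_closedBall hy2)
            have e4 : 1 ≤ vol w y / lam := by rw [le_div_iff₀ hlam0]; linarith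
            have e5 : 0 < Real.exp (φ y) := Real.exp_pos _
            calc η (y - z₀) * Real.exp (φ y) ≤ D * Real.exp (φ y) :=
                  mul_le_mul_of_nonneg_right (hM0 _) e5.le
              _ = D * Real.exp (φ y) * 1 := by ring
              _ ≤ D * Real.exp (φ y) * (vol w y / lam) :=
                  mul_le_mul_of_nonneg_left e4 (by positivity)
              _ = D / lam * (Real.exp (φ y) * vol w y) := by ring
      _ = ∫ z in ball c s, (D / lam) * (Real.exp (φ z) * vol w z) :=
          integral_indicator measurableSet_ball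
      _ = (D / lam) * ∫ z in ball c s, Real.exp (φ z) * vol w z := integral_const_mul _ _
      _ ≤ (D / lam) * M := mul_le_mul_of_nonneg_left hint (by positivity)
  have h6 : mv η g z₀ ≤ m0 := by
    have e1 : mv η g z₀ = ∫ t, η t * g (z₀ + t) := rfl
    have e2 : ∫ t, η t * g (z₀ + t) ≤
        ∫ t, (Real.exp (-m0) * (η t * Real.exp (g (z₀ + t))) + (m0 - 1) * η t) := by
      refine integral_mono i1 ((i2.const_mul _).add (i3.const_mul _)) fun t => ?_
      change η t * g (z₀ + t) ≤ Real.exp (-m0) * (η t * Real.exp (g (z₀ + t))) + (m0 - 1) * η t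
      have e3 := Real.add_one_le_exp (g (z₀ + t) - m0)
      have e4 : Real.exp (g (z₀ + t) - m0) = Real.exp (-m0) * Real.exp (g (z₀ + t)) := by
        rw [← Real.exp_add]; congr 1; ring
      rw [e4] at e3
      have e5 := mul_le_mul_of_nonneg_left e3 (m.nonneg t)
      nlinarith [e5]
    rw [integral_add (i2.const_mul _) (i3.const_mul _), integral_const_mul, integral_const_mul,
      m.one] at e2
    have e6 : Real.exp (-m0) * ∫ t, η t * Real.exp (g (z₀ + t)) ≤ 1 := by
      calc Real.exp (-m0) * ∫ t, η t * Real.exp (g (z₀ + t))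
          ≤ Real.exp (-m0) * ((D / lam) * M) := mul_le_mul_of_nonneg_left h5 (Real.exp_pos _).le
        _ = 1 := by
          rw [Real.exp_neg, hexp, mul_comm M]
          exact inv_mul_cancel₀ (by positivity)
    rw [e1]
    linarith
  rw [hz0]
  linarith

end Vale.Agent.P284.H119.K
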