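import Vale.Agent.P284.H409.K.Spec
import Vale.Agent.P284.H119.K5

/-! P284 theorem K, block K5. -/

namespace Vale.Agent.P284.H119.K

/-- **K5** -/
theorem k5Stmt : Vale.Agent.P284.H409.K.K5Stmt := k5

end Vale.Agent.P284.H119.K
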