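import Mathlib.Analysis.InnerProductSpace.Projection.Submodule
import Mathlib.Analysis.InnerProductSpace.l2Space
import Mathlib.GroupTheory.Index

/-! P284, theorem T: Kazhdan's property (T) (real orthogonal representations): elementary facts. -/

open scoped InnerProductSpace

noncomputable section

namespace Vale.Agent.P284.H119.Kaz

/-- Kazhdan's property (T), for orthogonal representations on real Hilbert spaces: there are a finite set
`S` and `ε > 0` such that every orthogonal representation with a unit vector which is moved by at most `ε`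
by the elements of `S` has a nonzero invariant vector. -/
def Kazhdan (Γ : Type) [Group Γ] : Prop :=
  ∃ (S : Finset Γ) (ε : ℝ), 0 < ε ∧ ∀ (H : Type) [NormedAddCommGroup H] [InnerProductSpace ℝ H]
    [CompleteSpace H] (π : Γ →* (H ≃ₗᵢ[ℝ] H)) (ξ : H), ‖ξ‖ = 1 → (∀ s ∈ S, ‖π s ξ - ξ‖ ≤ ε) →
    ∃ η : H, η ≠ 0 ∧ ∀ g, π g η = η

/-- the negation of property (T) -/
theorem not_kazhdan {Γ : Type} [Group Γ] (h : ¬ Kazhdan Γ) (S : Finset Γ) {ε : ℝ} (hε : 0 < ε) :
    ∃ (H : Type) (_ : NormedAddCommGroup H) (_ : InnerProductSpace ℝ H) (_ : CompleteSpace H)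
      (π : Γ →* (H ≃ₗᵢ[ℝ] H)) (ξ : H), ‖ξ‖ = 1 ∧ (∀ s ∈ S, ‖π s ξ - ξ‖ ≤ ε) ∧
      ∀ η : H, (∀ g, π g η = η) → η = 0 := by
  by_contra hc
  refine h ⟨S, ε, hε, ?_⟩
  intro H _ _ _ π ξ hξ hs
  by_contra hn
  refine hc ⟨H, _, _, ‹_›, π, ξ, hξ, hs, ?_⟩
  intro η hη
  by_contra h0
  exact hn ⟨η, h0, hη⟩

section
variable {Γ H : Type} [Group Γ] [NormedAddCommGroup H] [InnerProductSpace ℝ H]

/-- the invariant vectors -/
def inv (π : Γ →* (H ≃ₗᵢ[ℝ] H)) : Submodule ℝ H where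
  carrier := {x | ∀ g, π g x = x}
  add_mem' := by
    intro a b ha hb g
    rw [map_add, ha g, hb g]
  zero_mem' := fun g => map_zero _
  smul_mem' := by
    intro c x hx g
    rw [map_smul, hx g]

@[simp] lemma mem_inv {π : Γ →* (H ≃ₗᵢ[ℝ] H)} {x : H} : x ∈ inv π ↔ ∀ g, π g x = x := Iff.rfl

lemma inv_closed (π : Γ →* (H ≃ₗᵢ[ℝ] H)) : IsClosed (inv π : Set H) := by
  have : (inv π : Set H) = ⋂ g, {x | π g x = x} := by
    ext x; simp [mem_inv]
  rw [this]
  exact isClosed_iInter fun g => isClosed_eq (π g).continuous continuous_id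

lemma mul_ap (π : Γ →* (H ≃ₗᵢ[ℝ] H)) (g h : Γ) (x : H) : π (g * h) x = π g (π h x) := by
  rw [map_mul]; rfl

lemma inv_ap (π : Γ →* (H ≃ₗᵢ[ℝ] H)) (g : Γ) (x : H) : π g⁻¹ (π g x) = x := by
  rw [← mul_ap, inv_mul_cancel, map_one]; rfl

lemma ap_inv (π : Γ →* (H ≃ₗᵢ[ℝ] H)) (g : Γ) (x : H) : π g (π g⁻¹ x) = x := by
  rw [← mul_ap, mul_inv_cancel, map_one]; rfl

lemma orth_inv (π : Γ →* (H ≃ₗᵢ[ℝ] H)) (g : Γ) {x : H} (hx : x ∈ (inv π)ᗮ) :
    π g x ∈ (inv π)ᗮ := by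
  rw [Submodule.mem_orthogonal] at hx ⊢
  intro u hu
  have h1 := hx u hu
  have h2 : ⟪π g u, π g x⟫_ℝ = ⟪u, x⟫_ℝ := (π g).inner_map_map u x
  rw [hu g] at h2
  rw [h2, h1]

/-- the restriction of a representation to an invariant subspace -/
def restr (π : Γ →* (H ≃ₗᵢ[ℝ] H)) (W : Submodule ℝ H) (hW : ∀ g, ∀ x ∈ W, π g x ∈ W) :
    Γ →* (W ≃ₗᵢ[ℝ] W) where
  toFun g :=
    { toFun := fun x => ⟨π g x, hW g x x.2⟩
      map_add' := fun x y => by ext; simp
      map_smul' := fun c x => by ext; simp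
      invFun := fun x => ⟨π g⁻¹ x, hW g⁻¹ x x.2⟩
      left_inv := fun x => by ext; simp [inv_ap]
      right_inv := fun x => by
        ext
        change π g (π g⁻¹ (x : H)) = x
        exact ap_inv π g x
      norm_map' := fun x => by
        change ‖π g (x : H)‖ = ‖(x : H)‖
        exact (π g).norm_map x }
  map_one' := by
    ext x
    change π 1 (x : H) = x
    rw [map_one]; rfl
  map_mul' g h := by
    ext x
    change π (g * h) (x : H) = π g (π h (x : H))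
    exact mul_ap π g h x

@[simp] lemma restr_coe (π : Γ →* (H ≃ₗᵢ[ℝ] H)) (W : Submodule ℝ H)
    (hW : ∀ g, ∀ x ∈ W, π g x ∈ W) (g : Γ) (x : W) : ((restr π W hW g x : W) : H) = π g x := rfl

end

/-- the quantitative form: an almost invariant vector is near an invariant vector -/
theorem quant {Γ : Type} [Group Γ] {S : Finset Γ} {ε : ℝ} (hε : 0 < ε)
    (h : ∀ (H : Type) [NormedAddCommGroup H] [InnerProductSpace ℝ H]
      [CompleteSpace H] (π : Γ →* (H ≃ₗᵢ[ℝ] H)) (ξ : H), ‖ξ‖ = 1 → (∀ s ∈ S, ‖π s ξ - ξ‖ ≤ ε) →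
      ∃ η : H, η ≠ 0 ∧ ∀ g, π g η = η)
    {H : Type} [NormedAddCommGroup H] [InnerProductSpace ℝ H] [CompleteSpace H]
    (π : Γ →* (H ≃ₗᵢ[ℝ] H)) (ξ : H) {δ : ℝ} (hδ : 0 ≤ δ) (hs : ∀ s ∈ S, ‖π s ξ - ξ‖ ≤ δ) :
    ∃ y : H, (∀ g, π g y = y) ∧ ε * ‖ξ - y‖ ≤ δ := by
  have hcl := inv_closed π
  haveI : CompleteSpace (inv π) := hcl.completeSpace_coe
  obtain ⟨y, hy, z, hz, hyz⟩ := (inv π).exists_add_mem_mem_orthogonal ξ
  refine ⟨y, hy, ?_⟩
  have e1 : ξ - y = z := by rw [hyz]; abel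
  rw [e1]
  by_contra hcon
  push Not at hcon
  have hz0 : 0 < ‖z‖ := by
    by_contra h0
    have : ‖z‖ = 0 := le_antisymm (not_lt.1 h0) (norm_nonneg _)
    rw [this, mul_zero] at hcon
    linarith
  have hmove : ∀ g, π g ξ - ξ = π g z - z := by
    intro g
    rw [hyz, map_add, hy g]; abel
  -- the representation on the orthogonal complement
  let W : Submodule ℝ H := (inv π)ᗮ
  have hW : ∀ g, ∀ x ∈ W, π g x ∈ W := fun g x hx => orth_inv π g hx
  haveI : CompleteSpace W := (Submodule.isClosed_orthogonal (inv π)).completeSpace_coe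
  let zW : W := ⟨z, hz⟩
  obtain ⟨η, hη0, hη⟩ := h W (restr π W hW) (‖z‖⁻¹ • zW) (by
    rw [norm_smul, norm_inv, norm_norm]
    change ‖z‖⁻¹ * ‖z‖ = 1
    exact inv_mul_cancel₀ hz0.ne') (by
    intro s hs'
    have h1 := hs s hs'
    rw [hmove s] at h1
    rw [map_smul, ← smul_sub, norm_smul, norm_inv, norm_norm]
    have h2 : ‖restr π W hW s zW - zW‖ = ‖π s z - z‖ := rfl
    rw [h2]
    rw [inv_mul_le_iff₀ hz0]
    nlinarith)
  apply hη0
  have h3 : (η : H) ∈ inv π := by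
    intro g
    have := congrArg (Subtype.val) (hη g)
    simpa using this
  have h4 : (η : H) ∈ (inv π)ᗮ := η.2
  have h5 : ⟪(η : H), (η : H)⟫_ℝ = 0 := (Submodule.mem_orthogonal _ _).1 h4 _ h3
  have h6 : (η : H) = 0 := inner_self_eq_zero.1 h5
  exact Subtype.ext h6

/-- quotients of Kazhdan groups are Kazhdan -/
theorem Kazhdan.of_surjective {Γ Q : Type} [Group Γ] [Group Q] (h : Kazhdan Γ) (f : Γ →* Q)
    (hf : Function.Surjective f) : Kazhdan Q := by
  classical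
  obtain ⟨S, ε, hε, h⟩ := h
  refine ⟨S.image f, ε, hε, ?_⟩
  intro H _ _ _ π ξ hξ hs
  obtain ⟨η, hη0, hη⟩ := h H (π.comp f) ξ hξ (fun s hs' => hs (f s) (Finset.mem_image_of_mem f hs'))
  refine ⟨η, hη0, fun g => ?_⟩
  obtain ⟨g, rfl⟩ := hf g
  exact hη g

theorem Kazhdan.of_equiv {Γ Q : Type} [Group Γ] [Group Q] (h : Kazhdan Γ) (f : Γ ≃* Q) :
    Kazhdan Q := h.of_surjective f.toMonoidHom f.surjective

/-- a group with a Kazhdan subgroup of finite index is Kazhdan -/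
theorem Kazhdan.of_finiteIndex {Γ : Type} [Group Γ] (S' : Subgroup Γ) [S'.FiniteIndex]
    (h : Kazhdan S') : Kazhdan Γ := by
  classical
  obtain ⟨S, ε, hε, h⟩ := h
  haveI : Finite (Γ ⧸ S') := inferInstance
  haveI : Fintype (Γ ⧸ S') := Fintype.ofFinite _
  set ε' : ℝ := min (1 / 4) (ε / 4) with hε'
  have hε'0 : 0 < ε' := lt_min (by norm_num) (by linarith)
  refine ⟨S.image (Subtype.val) ∪ Finset.univ.image (fun q : Γ ⧸ S' => q.out), ε', hε'0, ?_⟩
  intro H _ _ _ π ξ hξ hs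
  obtain ⟨y, hy, hy2⟩ := quant hε h (π.comp S'.subtype) ξ hε'0.le (fun s hs' =>
    hs s (Finset.mem_union_left _ (Finset.mem_image_of_mem _ hs')))
  have hy3 : ‖ξ - y‖ ≤ 1 / 4 := by
    have h1 : ε * ‖ξ - y‖ ≤ ε / 4 := hy2.trans (min_le_right _ _)
    by_contra hc
    push Not at hc
    nlinarith
  set v : Γ ⧸ S' → H := fun q => π q.out y with hv
  have hvk : ∀ (k : Γ) (q : Γ ⧸ S'), π k (v q) = v (k • q) := by
    intro k q
    have h1 : ((k • q).out : Γ ⧸ S') = ((k * q.out : Γ) : Γ ⧸ S') := by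
      rw [QuotientGroup.out_eq']
      conv_lhs => rw [← QuotientGroup.out_eq' q]
      rfl
    have h2 : ((k • q).out)⁻¹ * (k * q.out) ∈ S' := by
      rw [← QuotientGroup.eq]
      exact h1
    have h3 : k * q.out = (k • q).out * (((k • q).out)⁻¹ * (k * q.out)) := by group
    simp only [hv]
    rw [← mul_ap, h3, mul_ap]
    congr 1
    exact hy ⟨_, h2⟩
  refine ⟨∑ q, v q, ?_, ?_⟩
  · intro h0
    have h1 : ∀ q, ‖ξ - v q‖ ≤ 1 / 2 := by
      intro q
      have h2 : ξ - v q = -(π q.out ξ - ξ) + π q.out (ξ - y) := by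
        simp only [hv, map_sub]; abel
      rw [h2]
      have h3 := hs q.out (Finset.mem_union_right _ (Finset.mem_image_of_mem _ (Finset.mem_univ q)))
      calc _ ≤ ‖-(π q.out ξ - ξ)‖ + ‖π q.out (ξ - y)‖ := norm_add_le _ _
        _ ≤ 1 / 4 + 1 / 4 := by
          rw [norm_neg, LinearIsometryEquiv.norm_map]
          exact add_le_add (h3.trans (min_le_left _ _)) hy3
        _ = 1 / 2 := by norm_num
    have h4 : ∑ q : Γ ⧸ S', (ξ - v q) = (Fintype.card (Γ ⧸ S') : ℝ) • ξ := by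
      rw [Finset.sum_sub_distrib, h0, sub_zero, Finset.sum_const, Finset.card_univ, Nat.cast_smul_eq_nsmul]
    have h5 : ‖∑ q : Γ ⧸ S', (ξ - v q)‖ ≤ (Fintype.card (Γ ⧸ S') : ℝ) * (1 / 2) := by
      refine (norm_sum_le _ _).trans ?_
      refine (Finset.sum_le_sum fun q _ => h1 q).trans ?_
      simp
    rw [h4, norm_smul, hξ, mul_one] at h5
    have h6 : (0 : ℝ) < Fintype.card (Γ ⧸ S') := by
      exact_mod_cast Fintype.card_pos
    rw [Real.norm_of_nonneg h6.le] at h5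
    linarith
  · intro g
    rw [map_sum]
    simp only [hvk]
    exact Function.Bijective.sum_comp (MulAction.bijective g) v

/-- the trivial group -/
theorem Kazhdan.of_subsingleton {Γ : Type} [Group Γ] [Subsingleton Γ] : Kazhdan Γ := by
  refine ⟨∅, 1, one_pos, ?_⟩
  intro H _ _ _ π ξ hξ _
  refine ⟨ξ, by intro h0; simp [h0] at hξ, fun g => ?_⟩
  rw [Subsingleton.elim g 1, map_one]; rfl

/-- finite groups are Kazhdan -/
theorem Kazhdan.of_finite {Γ : Type} [Group Γ] [Finite Γ] : Kazhdan Γ := by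
  haveI : (⊥ : Subgroup Γ).FiniteIndex := inferInstance
  exact Kazhdan.of_finiteIndex ⊥ Kazhdan.of_subsingleton

end Vale.Agent.P284.H119.Kaz
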