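import Vale.Agent.P284.H119.RankA
import Vale.Agent.P284.H5.S5N
import Vale.Agent.P284.H5.V16
import Vale.Agent.P284.H894.W.Spec2
import Vale.Agent.P268.Hol

/-!
# P284, block WS3: `P = F ∘ Φ~` is polynomial, of rank `N` somewhere
-/

open scoped Manifold ContDiff Topology Pointwise ComplexConjugate ComplexOrder
open Filter Set Metric MeasureTheory

noncomputable section

namespace Vale.Agent.P284.H119.R

open Vale.Agent.P272.K Vale.Agent.P284.H894.V Vale.Agent.P284.H894.W Vale.Agent.P284.H5.V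

variable {n N : ℕ}

/-! ### Entire functions with partial derivatives of polynomial growth -/

/-- complex differentiable functions are smooth -/
lemma contDiff_of_diff {f : Cm n → ℂ} (hf : Differentiable ℂ f) : ContDiff ℝ ∞ f := by
  rw [contDiff_infty]
  intro k
  have h := Vale.Agent.P268.contDiffOn_of_differentiableOn isOpen_univ hf.differentiableOn k
  rw [contDiffOn_univ] at h
  exact h.restrict_scalars ℝ

lemma hol_of_diff {f : Cm n → ℂ} (hf : Differentiable ℂ f) : Hol f :=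
  ⟨contDiff_of_diff hf, fun z _ => dzb_of_holo (hf z)⟩

/-- A primitive of functions of polynomial growth is a polynomial. -/
lemma poly_of_dz {f : Cm n → ℂ} (hf : Differentiable ℂ f) {m : ℕ}
    (h : ∀ j, dz j f ∈ PG n m) : ∃ q : MvPolynomial (Fin n) ℂ, ∀ z, f z = MvPolynomial.eval z q := by
  choose hol C hC using h
  have hC0 : ∀ j, 0 ≤ C j := fun j => by
    have := hC j 0
    simp only [norm_zero, add_zero, one_pow, mul_one] at this
    exact (norm_nonneg _).trans this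
  set D : ℝ := ∑ j, C j with hD
  have hD0 : 0 ≤ D := Finset.sum_nonneg fun j _ => hC0 j
  have hfd : ∀ z, ‖fderiv ℝ f z‖ ≤ D * (1 + ‖z‖) ^ m := by
    intro z
    refine ContinuousLinearMap.opNorm_le_bound _ (by positivity) fun v => ?_
    rw [fderiv_eq]
    have h0 : ∀ j, dzb j f z = 0 := fun j => dzb_of_holo (hf z)
    simp only [h0, zero_mul, add_zero]
    refine (norm_sum_le _ _).trans ?_
    rw [hD, Finset.sum_mul, Finset.sum_mul]
    refine Finset.sum_le_sum fun j _ => ?_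
    rw [norm_mul]
    exact mul_le_mul (hC j z) (norm_le_pi_norm v j) (norm_nonneg _)
      (mul_nonneg (hC0 j) (by positivity))
  obtain ⟨q, -, hq⟩ := Vale.Agent.P284.H5.C2.poly_of_growth (m := m + 1) hf (C := ‖f 0‖ + D)
    fun z => by
      have h1 : ‖f z - f 0‖ ≤ (D * (1 + ‖z‖) ^ m) * ‖z - 0‖ := by
        refine Convex.norm_image_sub_le_of_norm_fderiv_le (𝕜 := ℝ) (s := closedBall 0 ‖z‖)
          (fun y _ => (hf y).restrictScalars ℝ) (fun y hy => ?_) (convex_closedBall 0 ‖z‖)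
          (mem_closedBall_self (norm_nonneg z)) (by simp)
        refine (hfd y).trans ?_
        refine mul_le_mul_of_nonneg_left ?_ hD0
        refine pow_le_pow_left₀ (by positivity) ?_ _
        have := mem_closedBall_zero_iff.1 hy
        linarith
      have h2 : ‖f z‖ ≤ ‖f z - f 0‖ + ‖f 0‖ := by
        have := norm_add_le (f z - f 0) (f 0)
        simpa using this
      have h3 : (1 : ℝ) ≤ (1 + ‖z‖) ^ (m + 1) := one_le_pow₀ (by linarith [norm_nonneg z])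
      have h4 : (D * (1 + ‖z‖) ^ m) * ‖z - 0‖ ≤ D * (1 + ‖z‖) ^ (m + 1) := by
        rw [sub_zero, pow_succ, mul_assoc]
        refine mul_le_mul_of_nonneg_left ?_ hD0
        exact mul_le_mul_of_nonneg_left (by linarith) (by positivity)
      have h5 : ‖f 0‖ ≤ ‖f 0‖ * (1 + ‖z‖) ^ (m + 1) := le_mul_of_one_le_right (norm_nonneg _) h3
      rw [add_mul]
      linarith
  exact ⟨q, hq⟩

section
variable {X : Type} [TopologicalSpace X] [ChartedSpace (Cm n) X]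
  {E : Type} [TopologicalSpace E]
  {p : E → X} {w : Chart n X → Cm n → Matrix (Fin n) (Fin n) ℂ} {B : ℝ}
  {Φ : Cm n → X} {F : E → Cm N} {Φl : Cm n → E}

/-- Local properties of `F ∘ Φ~`. -/
lemma comp_local [IsManifold 𝓘(ℂ, Cm n) ω X] (hw : IsHermitian w)
    (hΦ : ContMDiff 𝓘(ℂ, Cm n) 𝓘(ℂ, Cm n) ω Φ)
    (hF : HolB p w F B) (hc : Continuous Φl) (hpΦ : ∀ ζ, p (Φl ζ) = Φ ζ) (ζ : Cm n) :
    DifferentiableAt ℂ (fun ξ => F (Φl ξ)) ζ ∧
      ∑ j, ‖fderiv ℂ (fun ξ => F (Φl ξ)) ζ (Pi.single j 1)‖ ^ 2 ≤ B * enDens w Φ ζ := by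
  set e := chartAt (Cm n) (Φ ζ) with he
  have hAt : At e (Φ ζ) := at_chartAt _
  obtain ⟨g, hug, hg, hB⟩ := hF (Φl ζ) e (by rw [hpΦ]; exact hAt)
  rw [hpΦ] at hg hB
  set τ : Cm n → Cm n := fun ξ => e (Φ ξ) with hτdef
  have hτ : ContDiffAt ℂ ω τ ζ := tau_smooth hΦ hAt
  have hτd : DifferentiableAt ℂ τ ζ := hτ.differentiableAt (by simp)
  have hev : (fun ξ => F (Φl ξ)) =ᶠ[𝓝 ζ] fun ξ => g (τ ξ) := by
    filter_upwards [hc.continuousAt.eventually hug] with ξ hξ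
    rw [hξ, hpΦ]
  have hgd : DifferentiableAt ℂ g (τ ζ) := hg.self_of_nhds
  have hcomp : HasFDerivAt (fun ξ => g (τ ξ)) ((fderiv ℂ g (τ ζ)).comp (fderiv ℂ τ ζ)) ζ :=
    hgd.hasFDerivAt.comp ζ hτd.hasFDerivAt
  have hcomp' := hcomp.congr_of_eventuallyEq hev
  refine ⟨hcomp'.differentiableAt, ?_⟩
  rw [hcomp'.fderiv, enDens_eq hw hΦ hAt, Complex.re_sum, Finset.mul_sum]
  refine Finset.sum_le_sum fun j _ => ?_
  set v : Cm n := fderiv ℂ τ ζ (Pi.single j 1) with hv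
  have hv' : (fun k => dz j (fun ξ => e (Φ ξ) k) ζ) = v := by
    funext k
    rw [hv, ← jmat_apply hτd]
    rfl
  rw [hv']
  exact hB v

lemma comp_diff [IsManifold 𝓘(ℂ, Cm n) ω X] (hw : IsHermitian w)
    (hΦ : ContMDiff 𝓘(ℂ, Cm n) 𝓘(ℂ, Cm n) ω Φ)
    (hF : HolB p w F B) (hc : Continuous Φl) (hpΦ : ∀ ζ, p (Φl ζ) = Φ ζ) (i : Fin N) :
    Differentiable ℂ fun ξ => F (Φl ξ) i := fun ζ =>
  differentiableAt_pi.1 (comp_local hw hΦ hF hc hpΦ ζ).1 i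

/-- **First half of WS3**: `F ∘ Φ~` is polynomial. -/
theorem exists_poly [IsManifold 𝓘(ℂ, Cm n) ω X] (hw : IsHermitian w)
    (hΦ : ContMDiff 𝓘(ℂ, Cm n) 𝓘(ℂ, Cm n) ω Φ)
    (hF : HolB p w F B) (hc : Continuous Φl) (hpΦ : ∀ ζ, p (Φl ζ) = Φ ζ) {C ρ : ℝ}
    (hC : ∀ r : ℝ, 1 ≤ r → ∫ ζ in ball (0 : Cm n) r, enDens w Φ ζ ≤ C * r ^ ρ) (i : Fin N) :
    ∃ q : MvPolynomial (Fin n) ℂ, ∀ ζ, F (Φl ζ) i = MvPolynomial.eval ζ q := by
  obtain ⟨m, hm⟩ : ∃ m : ℕ, ρ ≤ 2 * m := by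
    obtain ⟨m, hm⟩ := exists_nat_ge ρ
    exact ⟨m, by have : (0 : ℝ) ≤ m := Nat.cast_nonneg m
                 linarith⟩
  have hd := comp_diff hw hΦ hF hc hpΦ i
  refine poly_of_dz hd (m := m) fun j => ?_
  have hol : Hol (dz j fun ξ => F (Φl ξ) i) := (hol_of_diff hd).dz j
  have hen := enDens_continuous hw hΦ
  have hint : ∀ {f : Cm n → ℝ}, Continuous f → ∀ r : ℝ, IntegrableOn f (ball (0 : Cm n) r) :=
    fun hf r => (hf.continuousOn.integrableOn_compact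
      (isCompact_closedBall 0 r)).mono_set ball_subset_closedBall
  refine mem_PG_of_L2 hol (C := |B| * C) (ρ := ρ) (fun r hr => ?_) hm
  calc ∫ z in ball (0 : Cm n) r, ‖dz j (fun ξ => F (Φl ξ) i) z‖ ^ 2
      ≤ ∫ z in ball (0 : Cm n) r, |B| * enDens w Φ z := by
        refine setIntegral_mono_on (hint (hol.1.continuous.norm.pow 2) r)
          (hint (continuous_const.mul hen) r) measurableSet_ball fun z _ => ?_
        have h1 := comp_local hw hΦ hF hc hpΦ z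
        have h2 : ‖dz j (fun ξ => F (Φl ξ) i) z‖ ^ 2 ≤
            ∑ j, ‖fderiv ℂ (fun ξ => F (Φl ξ)) z (Pi.single j 1)‖ ^ 2 := by
          refine le_trans ?_ (Finset.single_le_sum
            (f := fun j => ‖fderiv ℂ (fun ξ => F (Φl ξ)) z (Pi.single j 1)‖ ^ 2)
            (fun i _ => by positivity) (Finset.mem_univ j))
          refine pow_le_pow_left₀ (norm_nonneg _) ?_ _
          rw [dz_of_holo (hd z)]
          have h3 : fderiv ℂ (fun ξ => F (Φl ξ) i) z (Pi.single j 1) =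
              fderiv ℂ (fun ξ => F (Φl ξ)) z (Pi.single j 1) i := by
            have h4 := (hasFDerivAt_pi'.1 h1.1.hasFDerivAt i).fderiv
            rw [h4]
            rfl
          rw [h3]
          exact norm_le_pi_norm _ i
        refine h2.trans (h1.2.trans ?_)
        exact mul_le_mul_of_nonneg_right (le_abs_self B) (enDens_nonneg hw hΦ z)
    _ = |B| * ∫ z in ball (0 : Cm n) r, enDens w Φ z := integral_const_mul _ _
    _ ≤ |B| * (C * r ^ ρ) := mul_le_mul_of_nonneg_left (hC r hr) (by positivity)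
    _ = _ := by ring

/-- Identity theorem for holomorphic functions on the covering space. -/
theorem ident_E [ConnectedSpace E] (hp : IsCoveringMap p) {u : E → ℂ}
    (hu : ∀ (y : E) (e : Chart n X), At e (p y) → ∃ g : Cm n → ℂ,
      (∀ᶠ y' in 𝓝 y, u y' = g (e (p y'))) ∧ ∀ᶠ z in 𝓝 (e (p y)), DifferentiableAt ℂ g z)
    {y₀ : E} (hc : ∀ᶠ y in 𝓝 y₀, u y = 0) (y : E) : u y = 0 := by
  set S : Set E := {y | ∀ᶠ y' in 𝓝 y, u y' = 0} with hS
  have hopen : IsOpen S := isOpen_setOfPred_eventually_nhds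
  have hclosed : IsClosed S := by
    rw [← closure_subset_iff_isClosed]
    intro y hy
    rw [mem_closure_iff_nhds] at hy
    set e := chartAt (Cm n) (p y) with he
    have hAt : At e (p y) := at_chartAt _
    obtain ⟨g, hug, hg⟩ := hu y e hAt
    obtain ⟨r, hr, hball⟩ := Metric.eventually_nhds_iff_ball.1 hg
    have hq : Tendsto (fun y' => e (p y')) (𝓝 y) (𝓝 (e (p y))) := (map_nhds_chart hp hAt.2).le
    have hN1 : ∀ᶠ y' in 𝓝 y, e (p y') ∈ ball (e (p y)) r :=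
      hq.eventually (ball_mem_nhds _ hr)
    have hN2 : ∀ᶠ y' in 𝓝 y, p y' ∈ e.source :=
      hp.continuous.continuousAt.eventually (e.open_source.mem_nhds hAt.2)
    obtain ⟨y₁, ⟨h1, h2, h3⟩, h4⟩ := hy _ (hug.eventually_nhds.and (hN1.and hN2))
    have h5 : ∀ᶠ z in 𝓝 (e (p y₁)), g z = 0 := by
      rw [← map_nhds_chart hp h3, eventually_map]
      have h4' : ∀ᶠ y' in 𝓝 y₁, u y' = 0 := h4
      filter_upwards [h1, h4'] with y' ha hb
      rw [← ha, hb]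
    have h6 := Vale.Agent.P284.H5.C2.ident_ball hball h2 h5
    show ∀ᶠ y' in 𝓝 y, u y' = 0
    filter_upwards [hug, hN1] with y' ha hb
    rw [ha, h6 _ hb]
  have huniv := IsClopen.eq_univ ⟨hclosed, hopen⟩ ⟨y₀, hc⟩
  have h7 : y ∈ S := by rw [huniv]; trivial
  have h8 : ∀ᶠ y' in 𝓝 y, u y' = 0 := h7
  exact h8.self_of_nhds

/-- If the polynomial `q` vanishes on `F (Φ~ ζ)`, it vanishes on `F`. -/
theorem zero_on_E [IsManifold 𝓘(ℂ, Cm n) ω X] [ConnectedSpace E] (hp : IsCoveringMap p)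
    (hΦ : ContMDiff 𝓘(ℂ, Cm n) 𝓘(ℂ, Cm n) ω Φ)
    (hF : HolB p w F B) (hc : Continuous Φl) (hpΦ : ∀ ζ, p (Φl ζ) = Φ ζ) {ζ₀ : Cm n}
    (hinj : Function.Injective (mfderiv 𝓘(ℂ, Cm n) 𝓘(ℂ, Cm n) Φ ζ₀))
    (q : MvPolynomial (Fin N) ℂ) (hq : ∀ ζ, MvPolynomial.eval (F (Φl ζ)) q = 0) (y : E) :
    MvPolynomial.eval (F y) q = 0 := by
  have hu : ∀ (y : E) (e : Chart n X), At e (p y) → ∃ g : Cm n → ℂ,
      (∀ᶠ y' in 𝓝 y, MvPolynomial.eval (F y') q = g (e (p y'))) ∧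
      ∀ᶠ z in 𝓝 (e (p y)), DifferentiableAt ℂ g z := by
    intro y e he
    obtain ⟨f, h1, h2, -⟩ := hF y e he
    refine ⟨fun z => MvPolynomial.eval (f z) q, ?_, ?_⟩
    · filter_upwards [h1] with y' h
      rw [h]
    · filter_upwards [h2] with z h
      exact (Vale.Agent.P284.H5.C2.differentiable_eval q (f z)).comp z h
  refine ident_E (n := n) hp hu (y₀ := Φl ζ₀) ?_ y
  set e := chartAt (Cm n) (Φ ζ₀) with he
  have hAt : At e (Φ ζ₀) := at_chartAt _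
  have hAt' : At e (p (Φl ζ₀)) := by rw [hpΦ]; exact hAt
  obtain ⟨g, hug, -⟩ := hu (Φl ζ₀) e hAt'
  have hg : ∀ᶠ z in 𝓝 (e (Φ ζ₀)), g z = 0 := by
    rw [← map_nhds_tau hΦ hinj, eventually_map]
    filter_upwards [hc.continuousAt.eventually hug] with ξ hξ
    rw [hpΦ] at hξ
    exact hξ.symm.trans (hq ξ)
  have hq : Tendsto (fun y' => e (p y')) (𝓝 (Φl ζ₀)) (𝓝 (e (Φ ζ₀))) := by
    rw [← hpΦ]
    exact (map_nhds_chart hp hAt'.2).le
  filter_upwards [hug, hq.eventually hg] with y' h1 h2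
  rw [h1, h2]

/-- `F` is regular where `F ∘ Φ~` has rank `N`. -/
theorem reg_of_surj [IsManifold 𝓘(ℂ, Cm n) ω X] (hp : IsCoveringMap p)
    (hΦ : ContMDiff 𝓘(ℂ, Cm n) 𝓘(ℂ, Cm n) ω Φ)
    (hF : HolB p w F B) (hc : Continuous Φl) (hpΦ : ∀ ζ, p (Φl ζ) = Φ ζ) {ζ : Cm n}
    (hs : Function.Surjective (fderiv ℂ (fun ζ => F (Φl ζ)) ζ)) : Reg (n := n) p F (Φl ζ) := by
  intro e f he hf
  have hAt : At e (Φ ζ) := by rw [← hpΦ]; exact he
  obtain ⟨f', h1, h2, -⟩ := hF (Φl ζ) e he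
  have h3 : f =ᶠ[𝓝 (e (p (Φl ζ)))] f' := by
    rw [Filter.EventuallyEq, ← map_nhds_chart hp he.2, eventually_map]
    filter_upwards [hf, h1] with y a b
    rw [← a, b]
  rw [h3.fderiv_eq]
  set τ : Cm n → Cm n := fun ξ => e (Φ ξ) with hτdef
  have hτd : DifferentiableAt ℂ τ ζ := (tau_smooth hΦ hAt).differentiableAt (by simp)
  have hev : (fun ξ => F (Φl ξ)) =ᶠ[𝓝 ζ] fun ξ => f' (τ ξ) := by
    filter_upwards [hc.continuousAt.eventually h1] with ξ hξ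
    rw [hξ, hpΦ]
  rw [hpΦ] at h2 ⊢
  have hcomp : HasFDerivAt (fun ξ => f' (τ ξ)) ((fderiv ℂ f' (τ ζ)).comp (fderiv ℂ τ ζ)) ζ :=
    h2.self_of_nhds.hasFDerivAt.comp ζ hτd.hasFDerivAt
  rw [(hcomp.congr_of_eventuallyEq hev).fderiv] at hs
  intro t
  obtain ⟨v, hv⟩ := hs t
  exact ⟨fderiv ℂ τ ζ v, hv⟩

/-- The derivative of `Φ` is injective near a point where it is injective. -/
theorem inj_near [IsManifold 𝓘(ℂ, Cm n) ω X]
    (hΦ : ContMDiff 𝓘(ℂ, Cm n) 𝓘(ℂ, Cm n) ω Φ) {ζ₀ : Cm n}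
    (hinj : Function.Injective (mfderiv 𝓘(ℂ, Cm n) 𝓘(ℂ, Cm n) Φ ζ₀)) :
    ∀ᶠ ζ in 𝓝 ζ₀, Function.Injective (mfderiv 𝓘(ℂ, Cm n) 𝓘(ℂ, Cm n) Φ ζ) := by
  set e := chartAt (Cm n) (Φ ζ₀) with he
  have hAt : At e (Φ ζ₀) := at_chartAt _
  set τ : Cm n → Cm n := fun ξ => e (Φ ξ) with hτdef
  have hτ : ContDiffAt ℂ ω τ ζ₀ := tau_smooth hΦ hAt
  have hmd : MDifferentiable 𝓘(ℂ, Cm n) 𝓘(ℂ, Cm n) Φ := hΦ.mdifferentiable (by simp)
  have h1 : mfderiv 𝓘(ℂ, Cm n) 𝓘(ℂ, Cm n) Φ ζ₀ = fderiv ℂ τ ζ₀ := by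
    rw [(hmd ζ₀).mfderiv]
    simp only [writtenInExtChartAt, mfld_simps, fderivWithin_univ]
    rfl
  rw [h1] at hinj
  have hsur : Function.Surjective (fderiv ℂ τ ζ₀) := by
    have : Function.Injective ((fderiv ℂ τ ζ₀ : Cm n →L[ℂ] Cm n) : Cm n →ₗ[ℂ] Cm n) := hinj
    exact LinearMap.injective_iff_surjective.1 this
  have hu : fderiv ℂ τ ζ₀ ∈ Set.range ((↑) : (Cm n ≃L[ℂ] Cm n) → (Cm n →L[ℂ] Cm n)) :=
    ⟨ContinuousLinearEquiv.ofBijective (fderiv ℂ τ ζ₀) (LinearMap.ker_eq_bot.2 hinj)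
      (LinearMap.range_eq_top.2 hsur), by ext v; rfl⟩
  have hcont : ContinuousAt (fderiv ℂ τ) ζ₀ :=
    (hτ.fderiv_right (m := 0) (by simp)).continuousAt
  filter_upwards [hcont.eventually ((ContinuousLinearEquiv.isOpen (𝕜 := ℂ)).mem_nhds hu),
    at_near hΦ hAt] with ζ h2 h3
  obtain ⟨A, hA⟩ := h2
  have h4 : MDifferentiableAt 𝓘(ℂ, Cm n) 𝓘(ℂ, Cm n) e (Φ ζ) :=
    (chart_contMDiffAt h3).mdifferentiableAt (by simp)
  have h5 : mfderiv 𝓘(ℂ, Cm n) 𝓘(ℂ, Cm n) τ ζ = (mfderiv 𝓘(ℂ, Cm n) 𝓘(ℂ, Cm n) e (Φ ζ)).comp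
      (mfderiv 𝓘(ℂ, Cm n) 𝓘(ℂ, Cm n) Φ ζ) := mfderiv_comp ζ h4 (hmd ζ)
  rw [mfderiv_eq_fderiv, ← hA] at h5
  intro a b hab
  apply A.injective
  have h6 : ∀ v, A v = mfderiv 𝓘(ℂ, Cm n) 𝓘(ℂ, Cm n) e (Φ ζ)
      (mfderiv 𝓘(ℂ, Cm n) 𝓘(ℂ, Cm n) Φ ζ v) := fun v =>
    congrArg (fun T : Cm n →L[ℂ] Cm n => T v) h5
  exact (h6 a).trans ((congrArg _ hab).trans (h6 b).symm)

end

theorem rankStmt2 : RankStmt2 := by
  intro n X _ _ _ _ _ _ w hw Φ hΦ E Γ _ _ _ _ p hp G K N F c hA Φl hΦl hpΦ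
  obtain ⟨B, hF⟩ := hA.hol
  obtain ⟨ζ₀, hinj⟩ := hΦ.nondeg
  obtain ⟨C, ρ, hC⟩ := hΦ.order
  have hcov := hp.cov
  choose P hP using fun i => exists_poly hw.1 hΦ.holo hF hΦl hpΦ hC i
  have hPe : (fun ζ => F (Φl ζ)) = fun ζ i => MvPolynomial.eval ζ (P i) := by
    funext ζ i
    exact hP i ζ
  refine ⟨P, fun ζ i => hP i ζ, ?_⟩
  have hsur : ∃ ζ, Function.Surjective
      (fderiv ℂ (fun ζ : Cm n => fun i => MvPolynomial.eval ζ (P i)) ζ) := by
    by_contra hcon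
    push Not at hcon
    obtain ⟨q, hq, hqz⟩ := exists_dep N P hcon
    apply hq
    have h1 : ∀ y, MvPolynomial.eval (F y) q = 0 := by
      refine zero_on_E hcov hΦ.holo hF hΦl hpΦ hinj q fun ζ => ?_
      rw [← hqz ζ]
      exact congrArg (fun v => MvPolynomial.eval v q) (congrFun hPe ζ)
    have hadd := alb_add hA
    have hc1 : c 1 = 0 := by
      have := hadd 1 G.one_mem 1 G.one_mem
      rw [mul_one] at this
      simpa using this
    let Λ : AddSubgroup (Cm N) :=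
      { carrier := c '' (G : Set Γ)
        zero_mem' := ⟨1, G.one_mem, hc1⟩
        add_mem' := by
          rintro _ _ ⟨g, hg, rfl⟩ ⟨h, hh, rfl⟩
          exact ⟨g * h, G.mul_mem hg hh, hadd g hg h hh⟩
        neg_mem' := by
          rintro _ ⟨g, hg, rfl⟩
          refine ⟨g⁻¹, G.inv_mem hg, ?_⟩
          have := hadd g hg g⁻¹ (G.inv_mem hg)
          rw [mul_inv_cancel, hc1] at this
          exact (neg_eq_of_add_eq_zero_right this.symm).symm }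
    obtain ⟨y₀⟩ := (inferInstance : Nonempty E)
    refine zero_of_lattice q Λ hA.span (F y₀) ?_
    rintro _ ⟨g, hg, rfl⟩
    rw [← hA.equiv g hg]
    exact h1 _
  obtain ⟨ζ₁, hζ₁⟩ := hsur
  obtain ⟨m, -, e, π, hdet, -⟩ := Vale.Agent.P284.H913.Ex.exists_proj P ζ₁ hζ₁
  obtain ⟨ζ, h1, h2⟩ := (Vale.Agent.P284.H5.C2.dense_ne_zero hdet).inter_nhds_nonempty
    (inj_near hΦ.holo hinj)
  have h3 := surj_of_det e P π h1
  rw [← hPe] at h3
  exact ⟨ζ, reg_of_surj hcov hΦ.holo hF hΦl hpΦ h3, h2, h3⟩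

end Vale.Agent.P284.H119.R
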