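import Vale.Agent.P284.H913.SheetEx
import Vale.Agent.P284.H5.C2

/-!
# P284, block WS3, part A: polynomial maps of deficient rank, Zariski density of lattices
-/

open scoped Topology ContDiff
open Filter Set Metric MvPolynomial

noncomputable section

namespace Vale.Agent.P284.H119.R

open Vale.Agent.P272.K Vale.Agent.P284.H913 Vale.Agent.P284.H913.Ex

variable {n N r m : ℕ}

theorem eval_aeval (P : Fin N → MvPolynomial (Fin n) ℂ) (Q : MvPolynomial (Fin N) ℂ) (z : Cm n) :
    eval z (aeval P Q) = eval (fun i => eval z (P i)) Q := by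
  induction Q using MvPolynomial.induction_on with
  | C a => simp
  | add p q hp hq => simp only [map_add, hp, hq]
  | mul_X p k hp => simp only [map_mul, aeval_X, hp, eval_X]

/-- A polynomial which is zero near a point is zero. -/
theorem zero_of_near {q : MvPolynomial (Fin n) ℂ} {z : Cm n} (h : ∀ᶠ y in 𝓝 z, eval y q = 0) :
    q = 0 := by
  by_contra hq
  obtain ⟨y, h1, h2⟩ := (H5.C2.dense_ne_zero hq).inter_nhds_nonempty h
  exact h1 h2

theorem mk_mem_ball (e : Fin n ≃ Fin r ⊕ Fin m) {y y₀ : Cm r} {v v₀ : Cm m} {ρ : ℝ} (hρ : 0 < ρ) :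
    mk e y v ∈ ball (mk e y₀ v₀) ρ ↔ y ∈ ball y₀ ρ ∧ v ∈ ball v₀ ρ := by
  simp only [mem_ball, dist_pi_lt_iff hρ]
  constructor
  · intro h
    refine ⟨fun i => ?_, fun j => ?_⟩
    · simpa [Ex.mk] using h (e.symm (Sum.inl i))
    · simpa [Ex.mk] using h (e.symm (Sum.inr j))
  · rintro ⟨h1, h2⟩ i
    change dist (Sum.elim y v (e i)) (Sum.elim y₀ v₀ (e i)) < ρ
    rcases e i with k | j
    · exact h1 k
    · exact h2 j

theorem mk_eta (e : Fin n ≃ Fin r ⊕ Fin m) (w : Cm n) :
    mk e (fun i => w (e.symm (Sum.inl i))) (fun j => w (e.symm (Sum.inr j))) = w := by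
  funext i
  change Sum.elim _ _ (e i) = w i
  have h := e.symm_apply_apply i
  rcases hk : e i with k | j
  · rw [hk] at h
    simp [h]
  · rw [hk] at h
    simp [h]

/-- restriction of a polynomial to `ℂʳ × {v}` -/
def slice (e : Fin n ≃ Fin r ⊕ Fin m) (v : Cm m) (a : MvPolynomial (Fin n) ℂ) :
    MvPolynomial (Fin (r + 1)) ℂ :=
  aeval (fun i => Sum.elim (fun k : Fin r => X k.castSucc) (fun j => C (v j)) (e i)) a

theorem eval_slice (e : Fin n ≃ Fin r ⊕ Fin m) (v : Cm m) (a : MvPolynomial (Fin n) ℂ)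
    (η : Cm (r + 1)) : eval η (slice e v a) = eval (mk e (fun k => η k.castSucc) v) a := by
  unfold slice
  rw [eval_aeval]
  congr 2
  funext i
  change eval η (Sum.elim _ _ (e i)) = Sum.elim _ _ (e i)
  rcases e i with k | j
  · simp
  · simp

theorem dep_step (e : Fin n ≃ Fin r ⊕ Fin m) (P : Fin (r + 1) → MvPolynomial (Fin n) ℂ)
    (π : Fin m → MvPolynomial (Fin n) ℂ)
    (hdet : (JP (RP e (fun i => P i.castSucc) π)).det ≠ 0)
    (hx : ∀ z, eval z (JP (RP e (fun i => P i.castSucc) π)).det ≠ 0 → ∀ v : Cm n,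
      (∀ i : Fin r, ∑ j, eval z (pderiv j (P i.castSucc)) * v j = 0) →
      ∑ j, eval z (pderiv j (P (Fin.last r))) * v j = 0) :
    ∃ q : MvPolynomial (Fin (r + 1)) ℂ, q ≠ 0 ∧ ∀ z, eval (fun i => eval z (P i)) q = 0 := by
  set x := P (Fin.last r) with hxd
  by_cases hx0 : x = 0
  · refine ⟨X (Fin.last r), X_ne_zero _, fun z => ?_⟩
    rw [eval_X, ← hxd, hx0, map_zero]
  set P' : Fin r → MvPolynomial (Fin n) ℂ := fun i => P i.castSucc with hP'
  set R := RP e P' π with hR
  obtain ⟨z₀, hz₀⟩ := (H5.C2.dense_ne_zero hdet).nonempty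
  have hz₀' : eval z₀ (JP R).det ≠ 0 := hz₀
  obtain ⟨τ, t1, t2, t3, -⟩ := local_inv R z₀ hz₀'
  set y₀ : Cm r := fun i => eval z₀ (P' i) with hy₀
  set v₀ : Cm m := fun j => eval z₀ (π j) with hv₀
  have hw₀ : RR R z₀ = mk e y₀ v₀ := RR_RP e P' π z₀
  have hτc : ContinuousAt τ (RR R z₀) := t2.self_of_nhds.2.continuousAt
  have t4 : ∀ᶠ w in 𝓝 (RR R z₀), eval (τ w) (JP R).det ≠ 0 := by
    have h1 : ∀ᶠ y in 𝓝 (τ (RR R z₀)), eval y (JP R).det ≠ 0 := by
      rw [t1]
      exact (H5.C2.isOpen_ne_zero _).mem_nhds hz₀'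
    exact hτc.eventually h1
  rw [hw₀] at t2 t4
  obtain ⟨ρ, hρ, hB⟩ := Metric.eventually_nhds_iff_ball.1 (t2.and t4)
  set g : Cm n → ℂ := fun w => eval (τ w) x with hg
  -- the derivative of `g` along the slices is zero
  have hgd : ∀ w ∈ ball (mk e y₀ v₀) ρ, HasFDerivAt g ((∑ j, eval (τ w) (pderiv j x) •
      (ContinuousLinearMap.proj j : Cm n →L[ℂ] ℂ)).comp (fderiv ℂ τ w)) w := fun w hw =>
    (hasFDerivAt_eval x (τ w)).comp w (hB w hw).1.2.hasFDerivAt
  have hg0 : ∀ w ∈ ball (mk e y₀ v₀) ρ, ∀ v : Cm m, fderiv ℂ g w (inr e v) = 0 := by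
    intro w hw v
    rw [(hgd w hw).fderiv]
    have h1 : ∀ i : Fin r,
        ∑ j, eval (τ w) (pderiv j (P' i)) * (fderiv ℂ τ w (inr e v)) j = 0 := by
      intro i
      have h2 : HasFDerivAt (fun w => eval (τ w) (P' i)) ((∑ j, eval (τ w) (pderiv j (P' i)) •
          (ContinuousLinearMap.proj j : Cm n →L[ℂ] ℂ)).comp (fderiv ℂ τ w)) w :=
        (hasFDerivAt_eval (P' i) (τ w)).comp w (hB w hw).1.2.hasFDerivAt
      have h3 : (fun w => eval (τ w) (P' i)) =ᶠ[𝓝 w] fun w => w (e.symm (Sum.inl i)) := by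
        filter_upwards [isOpen_ball.mem_nhds hw] with w' hw'
        have h4 := congrFun (hB w' hw').1.1 (e.symm (Sum.inl i))
        rw [← h4]
        simp [RR, hR, RP]
      have h5 : HasFDerivAt (fun w : Cm n => w (e.symm (Sum.inl i)))
          (ContinuousLinearMap.proj (e.symm (Sum.inl i)) : Cm n →L[ℂ] ℂ) w :=
        hasFDerivAt_apply (𝕜 := ℂ) (F' := fun _ : Fin n => ℂ) _ w
      have h6 := (h2.congr_of_eventuallyEq h3.symm).unique h5
      have h7 := congrArg (fun T : Cm n →L[ℂ] ℂ => T (inr e v)) h6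
      have h8 : (inr e v) (e.symm (Sum.inl i)) = 0 := by
        change (Sum.elim (fun _ => (0 : Cm m →L[ℂ] ℂ))
          (fun j => (ContinuousLinearMap.proj j : Cm m →L[ℂ] ℂ)) (e (e.symm (Sum.inl i)))) v = 0
        rw [Equiv.apply_symm_apply]
        rfl
      simpa [h8] using h7
    have h2 := hx (τ w) (hB w hw).2 (fderiv ℂ τ w (inr e v)) h1
    simpa using h2
  have hgc : ∀ y ∈ ball y₀ ρ, ∀ v ∈ ball v₀ ρ, ∀ v' ∈ ball v₀ ρ, g (mk e y v) = g (mk e y v') := by
    intro y hy v hv v' hv'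
    refine isOpen_ball.is_const_of_fderiv_eq_zero (𝕜 := ℂ) (f := fun v => g (mk e y v))
      (convex_ball v₀ ρ).isPreconnected (fun u hu => ?_) (fun u hu => ?_) hv hv'
    · have h1 := (hgd _ ((mk_mem_ball e hρ).2 ⟨hy, hu⟩)).comp u (hasFDerivAt_mk e y u)
      exact h1.differentiableAt.differentiableWithinAt
    · have hm := (mk_mem_ball e hρ).2 ⟨hy, hu⟩
      have h1 := (hgd _ hm).comp u (hasFDerivAt_mk e y u)
      have h2 : fderiv ℂ (fun v => g (mk e y v)) u = _ := h1.fderiv
      rw [h2]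
      ext t
      have h3 := hg0 _ hm t
      rw [(hgd _ hm).fderiv] at h3
      exact h3
  obtain ⟨p, hp0, hp⟩ := C1.exists_rel R hdet x hx0
  obtain ⟨w₁, hpw₁, hw₁⟩ := (H5.C2.dense_ne_zero hp0).inter_nhds_nonempty
    (isOpen_ball.mem_nhds (mem_ball_self (x := mk e y₀ v₀) hρ))
  set y₁ : Cm r := fun i => w₁ (e.symm (Sum.inl i)) with hy₁
  set v₁ : Cm m := fun j => w₁ (e.symm (Sum.inr j)) with hv₁
  have hwe : mk e y₁ v₁ = w₁ := mk_eta e w₁
  rw [← hwe, mk_mem_ball e hρ] at hw₁
  obtain ⟨-, hv₁b⟩ := hw₁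
  set q : MvPolynomial (Fin (r + 1)) ℂ := ∑ k ∈ Finset.range (p.natDegree + 1),
    slice e v₁ (p.coeff k) * X (Fin.last r) ^ k with hq
  have hqe : ∀ η : Cm (r + 1), eval η q = ∑ k ∈ Finset.range (p.natDegree + 1),
      eval (mk e (fun k => η k.castSucc) v₁) (p.coeff k) * η (Fin.last r) ^ k := by
    intro η
    rw [hq, map_sum]
    refine Finset.sum_congr rfl fun k _ => ?_
    rw [map_mul, map_pow, eval_X, eval_slice]
  have hrel : ∀ y ∈ ball y₀ ρ, ∑ k ∈ Finset.range (p.natDegree + 1),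
      eval (mk e y v₁) (p.coeff k) * g (mk e y v₁) ^ k = 0 := by
    intro y hy
    have hm := (mk_mem_ball e hρ).2 ⟨hy, hv₁b⟩
    have h1 := C1.eval_rel R x p hp (τ (mk e y v₁))
    have h2 : (fun i => eval (τ (mk e y v₁)) (R i)) = mk e y v₁ := (hB _ hm).1.1
    rw [h2] at h1
    exact h1
  refine ⟨q, fun h0 => ?_, ?_⟩
  · have h1 := hqe (Fin.snoc (α := fun _ => ℂ) y₁ 0)
    rw [h0, map_zero, Finset.sum_range_succ'] at h1
    have h2 : (fun k : Fin r => (Fin.snoc (α := fun _ => ℂ) y₁ 0 : Cm (r + 1)) k.castSucc) = y₁ := by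
      funext k
      exact Fin.snoc_castSucc (α := fun _ => ℂ) 0 y₁ k
    rw [h2, hwe, Fin.snoc_last] at h1
    apply hpw₁
    simpa using h1.symm
  · have hz : ∀ᶠ z in 𝓝 z₀, eval z (aeval P q) = 0 := by
      have h1 : ∀ᶠ z in 𝓝 z₀, RR R z ∈ ball (mk e y₀ v₀) ρ := by
        have h2 : ContinuousAt (RR R) z₀ := (contDiff_RR R).continuous.continuousAt
        refine h2.eventually (isOpen_ball.mem_nhds ?_)
        rw [hw₀]
        exact mem_ball_self hρ
      filter_upwards [h1, t3] with z h2 h3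
      have h4 : RR R z = mk e (fun i => eval z (P' i)) (fun j => eval z (π j)) := RR_RP e P' π z
      rw [h4, mk_mem_ball e hρ] at h2
      have h5 : g (mk e (fun i => eval z (P' i)) v₁) = eval z x := by
        rw [hgc _ h2.1 v₁ hv₁b _ h2.2, ← h4]
        change eval (τ (RR R z)) x = _
        rw [h3]
      have h6 := hrel _ h2.1
      rw [h5] at h6
      rw [eval_aeval, hqe]
      exact h6
    have h1 := zero_of_near hz
    intro z
    rw [← eval_aeval, h1, map_zero]

theorem fderiv_pm (P : Fin N → MvPolynomial (Fin n) ℂ) (z : Cm n) (v : Cm n) (k : Fin N) :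
    fderiv ℂ (fun ζ : Cm n => fun i => eval ζ (P i)) z v k =
      ∑ j, eval z (pderiv j (P k)) * v j := by
  have h1 : HasFDerivAt (fun ζ : Cm n => fun i => eval ζ (P i))
      (ContinuousLinearMap.pi fun i => ∑ j, eval z (pderiv j (P i)) •
        (ContinuousLinearMap.proj j : Cm n →L[ℂ] ℂ)) z :=
    hasFDerivAt_pi.2 fun i => hasFDerivAt_eval (P i) z
  rw [h1.fderiv]
  simp

theorem surj_of_det (e : Fin n ≃ Fin N ⊕ Fin m) (P : Fin N → MvPolynomial (Fin n) ℂ)
    (π : Fin m → MvPolynomial (Fin n) ℂ) {z : Cm n} (hdet : eval z (JP (RP e P π)).det ≠ 0) :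
    Function.Surjective (fderiv ℂ (fun ζ : Cm n => fun i => eval ζ (P i)) z) := by
  intro t
  have hd : IsUnit (J (RP e P π) z).det := by rw [J_det]; exact isUnit_iff_ne_zero.2 hdet
  refine ⟨(J (RP e P π) z)⁻¹.mulVec (mk e t 0), ?_⟩
  set u := (J (RP e P π) z)⁻¹.mulVec (mk e t 0) with hu
  have h1 : (J (RP e P π) z).mulVec u = mk e t 0 := by
    rw [hu, Matrix.mulVec_mulVec, Matrix.mul_nonsing_inv _ hd, Matrix.one_mulVec]
  funext k
  rw [fderiv_pm]
  have h2 := congrFun h1 (e.symm (Sum.inl k))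
  simpa [Ex.mk, J, JP, RP, Matrix.mulVec, dotProduct] using h2

/-- **The Jacobian criterion.** Polynomials whose Jacobian matrix has nowhere full rank are
algebraically dependent. -/
theorem exists_dep : ∀ (N : ℕ) (P : Fin N → MvPolynomial (Fin n) ℂ),
    (∀ ζ, ¬ Function.Surjective (fderiv ℂ (fun ζ : Cm n => fun i => eval ζ (P i)) ζ)) →
    ∃ q : MvPolynomial (Fin N) ℂ, q ≠ 0 ∧ ∀ z, eval (fun i => eval z (P i)) q = 0 := by
  intro N
  induction N with
  | zero =>
    intro P h
    exact absurd (fun t => ⟨0, Subsingleton.elim _ _⟩) (h 0)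
  | succ r ih =>
    intro P h
    by_cases hc : ∀ ζ, ¬ Function.Surjective
        (fderiv ℂ (fun ζ : Cm n => fun i : Fin r => eval ζ (P i.castSucc)) ζ)
    · obtain ⟨q, hq, hqz⟩ := ih (fun i => P i.castSucc) hc
      refine ⟨rename Fin.castSucc q, ?_, fun z => ?_⟩
      · intro h0
        exact hq ((rename_injective _ (Fin.castSucc_injective r)) (by rw [h0, map_zero]))
      · rw [eval_rename]
        exact hqz z
    · push Not at hc
      obtain ⟨ζ, hζ⟩ := hc
      obtain ⟨m, -, e, π, hdet, -⟩ := exists_proj (fun i : Fin r => P i.castSucc) ζ hζ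
      refine dep_step e P π hdet fun z hz v hv => ?_
      by_contra hne
      refine h z fun t => ?_
      obtain ⟨u, hu⟩ := surj_of_det e (fun i : Fin r => P i.castSucc) π hz
        (fun i => t i.castSucc)
      set d := ∑ j, eval z (pderiv j (P (Fin.last r))) * v j with hd
      set c := (t (Fin.last r) - ∑ j, eval z (pderiv j (P (Fin.last r))) * u j) / d with hcd
      refine ⟨u + c • v, ?_⟩
      funext k
      rw [fderiv_pm]
      have h1 : ∑ j, eval z (pderiv j (P k)) * (u + c • v) j =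
          ∑ j, eval z (pderiv j (P k)) * u j + c * ∑ j, eval z (pderiv j (P k)) * v j := by
        rw [Finset.mul_sum, ← Finset.sum_add_distrib]
        refine Finset.sum_congr rfl fun j _ => ?_
        simp only [Pi.add_apply, Pi.smul_apply, smul_eq_mul]
        ring
      rw [h1]
      refine Fin.lastCases ?_ (fun i => ?_) k
      · rw [← hd, hcd, div_mul_cancel₀ _ hne]
        ring
      · rw [hv i, mul_zero, add_zero]
        have h2 := congrFun hu i
        rw [fderiv_pm] at h2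
        exact h2

/-! ### Zariski density of lattices -/

/-- A polynomial which is zero on a translate of an additive subgroup spanning `ℂᴺ` is zero. -/
theorem zero_of_lattice (q : MvPolynomial (Fin N) ℂ) (Λ : AddSubgroup (Cm N))
    (hspan : Submodule.span ℝ (Λ : Set (Cm N)) = ⊤) (x : Cm N)
    (hq : ∀ l ∈ Λ, eval (x + l) q = 0) : q = 0 := by
  have hspanC : Submodule.span ℂ (Λ : Set (Cm N)) = ⊤ := by
    rw [eq_top_iff]
    intro v _
    have h1 : v ∈ Submodule.span ℝ (Λ : Set (Cm N)) := by rw [hspan]; trivial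
    exact Submodule.span_subset_span ℝ ℂ _ h1
  let Z : Set (Cm N) := {a | ∀ l ∈ Λ, eval (a + l) q = 0}
  have key : ∀ v ∈ Submodule.span ℂ (Λ : Set (Cm N)), ∀ t : ℂ, ∀ a ∈ Z, a + t • v ∈ Z := by
    intro v hv
    induction hv using Submodule.span_induction with
    | mem v hv =>
      intro t a ha l hl
      set P : Polynomial ℂ := aeval (fun i => Polynomial.C (a i + l i) +
        Polynomial.X * Polynomial.C (v i)) q with hP
      have hpe : ∀ t, P.eval t = eval (a + t • v + l) q := by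
        intro t
        have h1 : P.eval t = (Polynomial.evalRingHom t) (aeval (fun i =>
          Polynomial.C (a i + l i) + Polynomial.X * Polynomial.C (v i)) q) := rfl
        rw [h1, MvPolynomial.aeval_def, MvPolynomial.hom_eval₂, MvPolynomial.eval,
          MvPolynomial.coe_eval₂Hom]
        congr 1
        · ext c
          simp
        · funext i
          simp
          ring
      have hP0 : P = 0 := by
        refine Polynomial.eq_zero_of_infinite_isRoot P ?_
        refine (Set.infinite_range_of_injective (f := fun k : ℕ => (k : ℂ))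
          Nat.cast_injective).mono ?_
        rintro _ ⟨k, rfl⟩
        change P.eval (k : ℂ) = 0
        rw [hpe, add_assoc]
        refine ha _ (Λ.add_mem ?_ hl)
        rw [Nat.cast_smul_eq_nsmul]
        exact Λ.nsmul_mem hv k
      rw [← hpe, hP0, Polynomial.eval_zero]
    | zero =>
      intro t a ha
      rwa [smul_zero, add_zero]
    | add u v _ _ hu hv =>
      intro t a ha
      rw [smul_add, ← add_assoc]
      exact hv t _ (hu t a ha)
    | smul c v _ hv =>
      intro t a ha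
      rw [smul_smul]
      exact hv _ a ha
  refine MvPolynomial.funext fun y => ?_
  rw [map_zero]
  have h1 := key (y - x) (by rw [hspanC]; trivial) 1 x hq 0 Λ.zero_mem
  simpa using h1

end Vale.Agent.P284.H119.R
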