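import Vale.Agent.P284.H287.T.Defs
import Vale.Agent.P284.H66.GDiv

/-! # P284, theorem T (helper119): smoothness of the `H`-valued operators, algebra of sections -/

open scoped Manifold ContDiff Topology Pointwise ComplexConjugate ComplexOrder Matrix
open Filter Set Metric MeasureTheory

noncomputable section

namespace Vale.Agent.P284.H119.T

open Vale.Agent.P272.K Vale.Agent.P272.K.C2 Vale.Agent.P284.H248 Vale.Agent.P284.H894
  Vale.Agent.P284.H894.G Vale.Agent.P284.H894.V Vale.Agent.P284.H913.V Vale.Agent.P284.H359.V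
  Vale.Agent.P284.H287.T Vale.Agent.P284.H66 Vale.Agent.P284.H66.S7 Vale.Agent.P284.H639.V

section loc

variable {n : ℕ} {H : Type} [NormedAddCommGroup H] [InnerProductSpace ℝ H] {z : Cm n}
  {u v : Cm n → H}

theorem dH_smooth (hu : ContDiffAt ℝ ∞ u z) (a : Fin n × Bool) :
    ContDiffAt ℝ ∞ (fun y => dH u y a) z := by
  have h1 : ContDiffAt ℝ ∞ (fderiv ℝ u) z := hu.fderiv_right (m := ∞) (by norm_num)
  exact h1.clm_apply contDiffAt_const

theorem ddH_smooth (hu : ContDiffAt ℝ ∞ u z) (a b : Fin n × Bool) :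
    ContDiffAt ℝ ∞ (fun y => ddH u y a b) z :=
  dH_smooth (dH_smooth hu b) a

theorem cf_smooth {q : Cm n → ℂ} (hq : ContDiffAt ℝ ∞ q z) (α β : Bool) :
    ContDiffAt ℝ ∞ (fun y => cf (q y) α β) z := by
  have hre : ContDiffAt ℝ ∞ (fun y => (q y).re) z := Complex.reCLM.contDiff.contDiffAt.comp z hq
  have him : ContDiffAt ℝ ∞ (fun y => (q y).im) z := Complex.imCLM.contDiff.contDiffAt.comp z hq
  cases α <;> cases β
  · simpa [cf] using hre
  · simpa [cf] using him.neg
  · simpa [cf] using him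
  · simpa [cf] using hre

variable {U : Set (Cm n)} {w : Cm n → Matrix (Fin n) (Fin n) ℂ}

theorem inv_smooth (hw : KU U w) (hz : z ∈ U) (i j : Fin n) :
    ContDiffAt ℝ ∞ (fun y => (w y)⁻¹ i j) z := KU_inv hw hz i j

theorem cw_smooth (hw : KU U w) (hz : z ∈ U) (a b : Fin n × Bool) :
    ContDiffAt ℝ ∞ (fun y => cw w y a b) z :=
  (cf_smooth (inv_smooth hw hz b.1 a.1) a.2 b.2).div_const 4

theorem grH_smooth (hw : KU U w) (hz : z ∈ U) (hu : ContDiffAt ℝ ∞ u z)
    (hv : ContDiffAt ℝ ∞ v z) : ContDiffAt ℝ ∞ (fun y => grH w u v y) z := by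
  unfold grH
  refine ContDiffAt.sum fun a _ => ContDiffAt.sum fun b _ => ?_
  exact (cw_smooth hw hz a b).mul ((dH_smooth hu a).inner ℝ (dH_smooth hv b))

theorem lapH_smooth (hw : KU U w) (hz : z ∈ U) (hu : ContDiffAt ℝ ∞ u z) :
    ContDiffAt ℝ ∞ (fun y => lapH w u y) z := by
  unfold lapH
  refine ContDiffAt.sum fun a _ => ContDiffAt.sum fun b _ => ?_
  exact (cw_smooth hw hz a b).smul (ddH_smooth hu a b)

theorem hhH_smooth (hw : KU U w) (hz : z ∈ U) (hu : ContDiffAt ℝ ∞ u z)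
    (hv : ContDiffAt ℝ ∞ v z) : ContDiffAt ℝ ∞ (fun y => hhH w u v y) z := by
  unfold hhH
  refine ContDiffAt.sum fun a _ => ContDiffAt.sum fun b _ => ContDiffAt.sum fun c _ =>
    ContDiffAt.sum fun d _ => ?_
  refine ContDiffAt.mul ?_ ((ddH_smooth hu a b).inner ℝ (ddH_smooth hv c d))
  refine contDiffAt_const.mul ?_
  exact re_smooth ((((inv_smooth hw hz _ _).mul (inv_smooth hw hz _ _)).mul contDiffAt_const).mul
    contDiffAt_const)

/-- `u` affine equivalent to `v` near `z`: same derivatives -/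
theorem dH_iso {A : H ≃ₗᵢ[ℝ] H} {c : H} (hu : DifferentiableAt ℝ u z)
    (e : ∀ᶠ y in 𝓝 z, v y = A (u y) + c) (a : Fin n × Bool) : dH v z a = A (dH u z a) := by
  have h1 : HasFDerivAt (fun y => A (u y) + c)
      ((A.toContinuousLinearEquiv : H →L[ℝ] H).comp (fderiv ℝ u z)) z :=
    ((A.toContinuousLinearEquiv : H →L[ℝ] H).hasFDerivAt.comp z hu.hasFDerivAt).add_const c
  have h2 : fderiv ℝ v z = (A.toContinuousLinearEquiv : H →L[ℝ] H).comp (fderiv ℝ u z) := by
    rw [Filter.EventuallyEq.fderiv_eq e, h1.fderiv]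
  unfold dH
  rw [h2]
  rfl

theorem ddH_iso {A : H ≃ₗᵢ[ℝ] H} {c : H} (hu : ContDiffAt ℝ ∞ u z)
    (e : ∀ᶠ y in 𝓝 z, v y = A (u y) + c) (a b : Fin n × Bool) :
    ddH v z a b = A (ddH u z a b) := by
  have hd : ∀ᶠ y in 𝓝 z, DifferentiableAt ℝ u y := by
    have := (hu.of_le (m := 1) (by exact_mod_cast le_top)).eventually (by simp)
    filter_upwards [this] with y hy
    exact hy.differentiableAt (by simp)
  have e2 : ∀ᶠ y in 𝓝 z, dH v y b = A (dH u y b) + 0 := by
    filter_upwards [e.eventually_nhds, hd] with y hy hdy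
    rw [dH_iso hdy hy b, add_zero]
  exact dH_iso ((dH_smooth hu b).differentiableAt (by simp)) e2 a

end loc

section glob
variable {n : ℕ} {Γ : Type} [Group Γ] {C : Coc n Γ} {H : Type} [NormedAddCommGroup H]
  [InnerProductSpace ℝ H] {π : Γ →* (H ≃ₗᵢ[ℝ] H)} {b b' : Γ → H} {u v : Γ → C.I → Cm n → H}

theorem sec_add (hu : Sec C π b u) (hv : Sec C π b' v) :
    Sec C π (fun g => b g + b' g) (fun γ a z => u γ a z + v γ a z) where
  smooth γ a z hz := (hu.smooth γ a z hz).add (hv.smooth γ a z hz)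
  compat γ a d z hz := by rw [hu.compat γ a d z hz, hv.compat γ a d z hz]
  equi g γ a z hz := by rw [hu.equi g γ a z hz, hv.equi g γ a z hz, map_add]; abel

theorem sec_sub (hu : Sec C π b u) (hv : Sec C π b' v) :
    Sec C π (fun g => b g - b' g) (fun γ a z => u γ a z - v γ a z) where
  smooth γ a z hz := (hu.smooth γ a z hz).sub (hv.smooth γ a z hz)
  compat γ a d z hz := by rw [hu.compat γ a d z hz, hv.compat γ a d z hz]
  equi g γ a z hz := by rw [hu.equi g γ a z hz, hv.equi g γ a z hz, map_sub]; abel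

theorem sec_smul (r : ℝ) (hu : Sec C π b u) :
    Sec C π (fun g => r • b g) (fun γ a z => r • u γ a z) where
  smooth γ a z hz := contDiffAt_const.smul (hu.smooth γ a z hz)
  compat γ a d z hz := by rw [hu.compat γ a d z hz]
  equi g γ a z hz := by rw [hu.equi g γ a z hz, map_smul, smul_add]

theorem sec_zero : Sec C π (fun _ => 0) (fun _ _ _ => (0 : H)) where
  smooth γ a z hz := contDiffAt_const
  compat γ a d z hz := rfl
  equi g γ a z hz := by simp

/-- near `z ∈ O a d` the section in the chart `a` is the section in the chart `d`, moved by `π (κ)` -/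
theorem sec_near (hu : Sec C π b u) (γ : Γ) {a d : C.I} {z : Cm n} (hz : z ∈ C.O a d) :
    ∀ᶠ y in 𝓝 z, u γ a y = π (γ * C.κ a d z * γ⁻¹) (u γ d (C.T a d y)) + b (γ * C.κ a d z * γ⁻¹) := by
  filter_upwards [(C.O_open a d).mem_nhds hz, C.κ_loc a d z hz] with y hy hk
  rw [hu.compat γ a d y hy, hk]
  have h1 : γ * C.κ a d z = (γ * C.κ a d z * γ⁻¹) * γ := by group
  conv_lhs => rw [h1]
  exact hu.equi _ γ d _ (T_mem_Ω C hy)

theorem sec_near1 (hu : Sec C π b u) {a d : C.I} {z : Cm n} (hz : z ∈ C.O a d) :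
    ∀ᶠ y in 𝓝 z, u 1 a y = π (C.κ a d z) (u 1 d (C.T a d y)) + b (C.κ a d z) := by
  have := sec_near hu 1 hz
  simpa using this

end glob

end Vale.Agent.P284.H119.T
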