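import Vale.Agent.P284.H119.T8

/-! # P284, theorem T, row T2a (helper119): integration by parts for sections with values in a Hilbert
space -/

open scoped Manifold ContDiff Topology Pointwise ComplexConjugate ComplexOrder Matrix
open Filter Set Metric MeasureTheory

noncomputable section

namespace Vale.Agent.P284.H119.T

open Vale.Agent.P272.K Vale.Agent.P272.K.C2 Vale.Agent.P284.H248 Vale.Agent.P284.H894
  Vale.Agent.P284.H894.G Vale.Agent.P284.H894.V Vale.Agent.P284.H913.V Vale.Agent.P284.H359.V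
  Vale.Agent.P284.H287.T Vale.Agent.P284.H66 Vale.Agent.P284.H66.S7 Vale.Agent.P284.H639.V

section loc

variable {n : ℕ} {H : Type} [NormedAddCommGroup H] [InnerProductSpace ℝ H] {z : Cm n}
  {u v : Cm n → H}

/-- the form `⟨∂̄u, v⟩` -/
def al (u v : Cm n → H) (z : Cm n) (l : Fin n) : ℂ :=
  (((@inner ℝ H _ (dH u z (l, false)) (v z) : ℝ) : ℂ) +
    Complex.I * ((@inner ℝ H _ (dH u z (l, true)) (v z) : ℝ) : ℂ)) / 2

theorem fderiv_cmp (hu : DifferentiableAt ℝ u z) (η : H) (x : Cm n) :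
    fderiv ℝ (fun y => ((@inner ℝ H _ (u y) η : ℝ) : ℂ)) z x =
      ((@inner ℝ H _ (fderiv ℝ u z x) η : ℝ) : ℂ) := by
  have h1 : DifferentiableAt ℝ (fun y => @inner ℝ H _ (u y) η) z :=
    hu.inner ℝ (differentiableAt_const η)
  rw [fderiv_coe h1, fderiv_inner_apply ℝ hu (differentiableAt_const η)]
  simp

theorem al_eq (hu : DifferentiableAt ℝ u z) (l : Fin n) :
    al u v z l = dzb l (fun y => ((@inner ℝ H _ (u y) (v z) : ℝ) : ℂ)) z := by
  unfold al dzb
  rw [fderiv_cmp hu, fderiv_cmp hu]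
  rfl

theorem al_smooth (hu : ContDiffAt ℝ ∞ u z) (hv : ContDiffAt ℝ ∞ v z) (l : Fin n) :
    ContDiffAt ℝ ∞ (fun y => al u v y l) z := by
  unfold al
  refine ContDiffAt.div_const (ContDiffAt.add ?_ (contDiffAt_const.mul ?_)) 2
  · exact contDiffAt_ofReal ((dH_smooth hu _).inner ℝ hv)
  · exact contDiffAt_ofReal ((dH_smooth hu _).inner ℝ hv)

/-- the derivative of a pairing -/
theorem fderiv_pair (hu : ContDiffAt ℝ ∞ u z) (hv : ContDiffAt ℝ ∞ v z) (a b : Fin n × Bool) :
    fderiv ℝ (fun y => ((@inner ℝ H _ (dH u y b) (v y) : ℝ) : ℂ)) z (ev a) =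
      ((@inner ℝ H _ (ddH u z a b) (v z) + @inner ℝ H _ (dH u z b) (dH v z a) : ℝ) : ℂ) := by
  have h0 : DifferentiableAt ℝ (fun y => dH u y b) z := (dH_smooth hu b).differentiableAt (by simp)
  have h1 : DifferentiableAt ℝ v z := hv.differentiableAt (by simp)
  rw [fderiv_coe (h0.inner ℝ h1), fderiv_inner_apply ℝ h0 h1]
  congr 1
  rw [add_comm]
  rfl

theorem fderiv_comb {f g : Cm n → ℂ} (hf : DifferentiableAt ℝ f z) (hg : DifferentiableAt ℝ g z)
    (x : Cm n) : fderiv ℝ (fun y => (f y + Complex.I * g y) / 2) z x =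
      (fderiv ℝ f z x + Complex.I * fderiv ℝ g z x) / 2 := by
  have h1 : HasFDerivAt (fun y => (f y + Complex.I * g y) / 2)
      ((2 : ℂ)⁻¹ • (fderiv ℝ f z + Complex.I • fderiv ℝ g z)) z := by
    have := ((hf.hasFDerivAt.add (hg.hasFDerivAt.const_smul Complex.I)).const_smul (2 : ℂ)⁻¹)
    refine this.congr_of_eventuallyEq (Eventually.of_forall fun y => ?_)
    simp only [Pi.add_apply, Pi.smul_apply, smul_eq_mul]
    ring
  rw [h1.fderiv]
  simp only [_root_.smul_apply, _root_.add_apply, smul_eq_mul]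
  ring

/-- the matrix `∂_r ⟨∂̄_l u, v⟩` in real letters -/
theorem pd_al (hu : ContDiffAt ℝ ∞ u z) (hv : ContDiffAt ℝ ∞ v z) (r l : Fin n) :
    pd (al u v) z r l = (∑ α : Bool, ∑ β : Bool, sg α β *
      ((@inner ℝ H _ (ddH u z (r, α) (l, β)) (v z) +
        @inner ℝ H _ (dH u z (l, β)) (dH v z (r, α)) : ℝ) : ℂ)) / 4 := by
  have hd : ∀ β, DifferentiableAt ℝ (fun y => ((@inner ℝ H _ (dH u y (l, β)) (v y) : ℝ) : ℂ)) z :=
    fun β => (contDiffAt_ofReal ((dH_smooth hu _).inner ℝ hv)).differentiableAt (n := ∞) (by simp)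
  rw [pd, Matrix.of_apply]
  unfold dz al
  rw [fderiv_comb (hd false) (hd true), fderiv_comb (hd false) (hd true)]
  have e1 : ∀ β, fderiv ℝ (fun y => ((@inner ℝ H _ (dH u y (l, β)) (v y) : ℝ) : ℂ)) z
      (Pi.single r 1) = ((@inner ℝ H _ (ddH u z (r, false) (l, β)) (v z) +
        @inner ℝ H _ (dH u z (l, β)) (dH v z (r, false)) : ℝ) : ℂ) := fun β =>
    fderiv_pair hu hv (r, false) (l, β)
  have e2 : ∀ β, fderiv ℝ (fun y => ((@inner ℝ H _ (dH u y (l, β)) (v y) : ℝ) : ℂ)) z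
      (Pi.single r Complex.I) = ((@inner ℝ H _ (ddH u z (r, true) (l, β)) (v z) +
        @inner ℝ H _ (dH u z (l, β)) (dH v z (r, true)) : ℝ) : ℂ) := fun β =>
    fderiv_pair hu hv (r, true) (l, β)
  rw [e1, e1, e2, e2]
  simp only [Fintype.sum_bool, sg]
  simp
  linear_combination (-((@inner ℝ H _ (ddH u z (r, true) (l, true)) (v z) : ℂ) +
    (@inner ℝ H _ (dH u z (l, true)) (dH v z (r, true)) : ℂ)) / 4) * Complex.I_mul_I

theorem re_sg (q : ℂ) (x : ℝ) (α β : Bool) : (q * (sg α β * (x : ℂ))).re = cf q α β * x := by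
  cases α <;> cases β <;> simp [sg, cf, Complex.mul_re, Complex.mul_im]

/-- trace in real letters -/
theorem trace_real (g : Matrix (Fin n) (Fin n) ℂ) (x : Fin n × Bool → Fin n × Bool → ℝ) :
    (g * (Matrix.of fun r l : Fin n => (∑ α : Bool, ∑ β : Bool, sg α β *
      ((x (r, α) (l, β) : ℝ) : ℂ)) / 4)).trace.re =
      ∑ a : Fin n × Bool, ∑ b : Fin n × Bool, cf (g b.1 a.1) a.2 b.2 / 4 * x a b := by
  have h1 : ∀ l r, (g l r * ((∑ α : Bool, ∑ β : Bool, sg α β * ((x (r, α) (l, β) : ℝ) : ℂ)) / 4)).re =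
      ∑ α : Bool, ∑ β : Bool, cf (g l r) α β / 4 * x (r, α) (l, β) := by
    intro l r
    have : g l r * ((∑ α : Bool, ∑ β : Bool, sg α β * ((x (r, α) (l, β) : ℝ) : ℂ)) / 4) =
        ∑ α : Bool, ∑ β : Bool, ((1 / 4 : ℝ) : ℂ) * (g l r * (sg α β * ((x (r, α) (l, β) : ℝ) : ℂ))) := by
      simp only [Fintype.sum_bool]
      push_cast
      ring
    rw [this, Complex.re_sum]
    refine Finset.sum_congr rfl fun α _ => ?_
    rw [Complex.re_sum]
    refine Finset.sum_congr rfl fun β _ => ?_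
    rw [Complex.re_ofReal_mul, re_sg]
    ring
  rw [Matrix.trace, Complex.re_sum]
  simp only [Matrix.diag_apply, Matrix.mul_apply, Matrix.of_apply, Complex.re_sum, h1]
  rw [Finset.sum_comm, Fintype.sum_prod_type]
  refine Finset.sum_congr rfl fun r _ => ?_
  rw [Finset.sum_comm]
  refine Finset.sum_congr rfl fun α _ => ?_
  rw [Fintype.sum_prod_type]

theorem trace_pd (w : Cm n → Matrix (Fin n) (Fin n) ℂ) (hu : ContDiffAt ℝ ∞ u z)
    (hv : ContDiffAt ℝ ∞ v z) : ((w z)⁻¹ * pd (al u v) z).trace.re =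
      @inner ℝ H _ (lapH w u z) (v z) + grH w v u z := by
  have h1 : pd (al u v) z = Matrix.of fun r l : Fin n => (∑ α : Bool, ∑ β : Bool, sg α β *
      ((@inner ℝ H _ (ddH u z (r, α) (l, β)) (v z) +
        @inner ℝ H _ (dH u z (l, β)) (dH v z (r, α)) : ℝ) : ℂ)) / 4 := by
    ext r l
    rw [pd_al hu hv]
    rfl
  rw [h1, trace_real (w z)⁻¹ fun a b => @inner ℝ H _ (ddH u z a b) (v z) +
        @inner ℝ H _ (dH u z b) (dH v z a)]
  unfold lapH grH
  rw [sum_inner, ← Finset.sum_add_distrib]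
  refine Finset.sum_congr rfl fun a _ => ?_
  rw [sum_inner, ← Finset.sum_add_distrib]
  refine Finset.sum_congr rfl fun b _ => ?_
  rw [real_inner_smul_left, real_inner_comm (dH v z a) (dH u z b)]
  unfold cw
  ring

end loc

section glob
variable {n : ℕ} {Γ : Type} [Group Γ] {C : Coc n Γ} {H : Type} [NormedAddCommGroup H]
  [InnerProductSpace ℝ H] {π : Γ →* (H ≃ₗᵢ[ℝ] H)} {b b' : Γ → H} {u v : Γ → C.I → Cm n → H}

theorem dzb_vec (f : Cm n → ℝ) (z : Cm n) (l : Fin n) :
    dzb l (fun y => (f y : ℂ)) z = conj (H730.V.dd f z l) := H730.V.dzb_dd f l z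

theorem al_CF (hu : Sec C π b u) (hv : Sec C π (fun _ => 0) v) :
    CF C (fun a => al (u 1 a) (v 1 a)) where
  smooth a z hz l := al_smooth (hu.smooth 1 a z hz) (hv.smooth 1 a z hz) l
  change a d z hz := by
    have hzΩ := O_sub_Ω C hz
    have hT := T_mem_Ω C hz
    have hTd : DifferentiableAt ℂ (C.T a d) z :=
      (C.T_holo a d).differentiableAt ((C.O_open a d).mem_nhds hz)
    have hu1 := (hu.smooth 1 a z hzΩ).differentiableAt (by simp)
    have hu2 := (hu.smooth 1 d _ hT).differentiableAt (by simp)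
    have hv1 : v 1 a z = π (C.κ a d z) (v 1 d (C.T a d z)) := by
      have := (sec_near1 hv hz).self_of_nhds
      simpa using this
    set c : ℝ := @inner ℝ H _ (b (C.κ a d z)) (v 1 a z) with hc
    set f : Cm n → ℝ := fun y => @inner ℝ H _ (u 1 a y) (v 1 a z) - c with hf
    set f' : Cm n → ℝ := fun y => @inner ℝ H _ (u 1 d y) (v 1 d (C.T a d z)) with hf'
    have he : ∀ᶠ y in 𝓝 z, f y = f' (C.T a d y) := by
      filter_upwards [sec_near1 hu hz] with y hy
      simp only [hf, hf', hy, inner_add_left, hv1]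
      rw [add_sub_assoc, ← hv1, ← hc, sub_self, add_zero, hv1]
      exact (π (C.κ a d z)).inner_map_map _ _
    have hf'd : DifferentiableAt ℝ f' (C.T a d z) := hu2.inner ℝ (differentiableAt_const _)
    have h1 := H730.V.dd_comp hTd hf'd he
    funext l
    rw [al_eq hu1]
    have e1 : dzb l (fun y => ((@inner ℝ H _ (u 1 a y) (v 1 a z) : ℝ) : ℂ)) z =
        dzb l (fun y => (f y : ℂ)) z := by
      have hd : DifferentiableAt ℝ (fun y => ((@inner ℝ H _ (u 1 a y) (v 1 a z) : ℝ) : ℂ)) z :=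
        C2.differentiableAt_ofReal (hu1.inner ℝ (differentiableAt_const _))
      unfold dzb
      have : (fun y => (f y : ℂ)) = fun y => ((@inner ℝ H _ (u 1 a y) (v 1 a z) : ℝ) : ℂ) - (c : ℂ) := by
        ext y; simp [hf]
      rw [this, fderiv_sub_const]
    rw [e1, dzb_vec, h1]
    simp only [Matrix.mulVec, dotProduct, Matrix.conjTranspose_apply, Matrix.transpose_apply, map_sum,
      map_mul]
    refine Finset.sum_congr rfl fun q _ => ?_
    rw [← dzb_vec, al_eq hu2]
    rfl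

theorem dens_al (K : KM C) (hu : Sec C π b u) (hv : Sec C π (fun _ => 0) v) (a : C.I) {z : Cm n}
    (hz : z ∈ C.Ω a) : dens K K.w (fun a => al (u 1 a) (v 1 a)) a z =
      @inner ℝ H _ (lapH (K.w a) (u 1 a) z) (v 1 a z) + grH (K.w a) (v 1 a) (u 1 a) z := by
  rw [← trace_pd (K.w a) (hu.smooth 1 a z hz) (hv.smooth 1 a z hz), dens]
  have hp := (K.ku a).pos z hz
  have h0 : (K.w a z).det ≠ 0 := hp.det_pos.ne'
  have hre : ((K.w a z).det.re : ℂ) = (K.w a z).det := det_real (K.ku a) hz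
  have h1 : (K.w a z).adjugate = (K.w a z).det • (K.w a z)⁻¹ := by
    rw [Matrix.inv_def, smul_smul, Ring.mul_inverse_cancel _ (isUnit_iff_ne_zero.2 h0), one_smul]
  rw [h1, Matrix.smul_mul, Matrix.trace_smul, smul_eq_mul, ← hre, Complex.re_ofReal_mul]
  have h2 := vol_ne K hz
  unfold vol at h2 ⊢
  field_simp

theorem cb_w (K : KM C) : CB C K.w where
  smooth a z hz i j := (K.ku a).smooth z hz i j
  closed a z hz i k l := (K.ku a).closed z hz k l i
  change a d z hz := K.change a d z hz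

/-- **T2a**: integration by parts on the base. -/
theorem ibp0 (P : PU C) (K : KM C) (hu : Sec C π b u) (hv : Sec C π (fun _ => 0) v) :
    BInt P K (fun a z => @inner ℝ H _ (lapH (K.w a) (u 1 a) z) (v 1 a z) +
      grH (K.w a) (v 1 a) (u 1 a) z) = 0 := by
  rw [← glob_div P K (cb_w K) (al_CF hu hv)]
  exact BInt_congr P K fun a z hz => (dens_al K hu hv a (V_sub_Ω C a hz)).symm

/-- additivity for continuous integrands -/
theorem BInt_add' (P : PU C) (K : KM C) {F G : C.I → Cm n → ℝ} (hF : ∀ a, ContinuousOn (F a) (C.Ω a))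
    (hG : ∀ a, ContinuousOn (G a) (C.Ω a)) :
    BInt P K (fun a z => F a z + G a z) = BInt P K F + BInt P K G := by
  unfold BInt
  rw [← Finset.sum_add_distrib]
  refine Finset.sum_congr rfl fun a _ => ?_
  have h1 : IntegrableOn (fun z => P.χ a a z * F a z * vol (K.w a) z) (C.V a) :=
    intV (((chi_cont P a a).mul (hF a)).mul (vol_cont K a))
  have h2 : IntegrableOn (fun z => P.χ a a z * G a z * vol (K.w a) z) (C.V a) :=
    intV (((chi_cont P a a).mul (hG a)).mul (vol_cont K a))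
  rw [← integral_add h1 h2]
  refine setIntegral_congr_fun measurableSet_ball fun z _ => ?_
  simp only
  ring

theorem grH_cont (K : KM C) (hu : Sec C π b u) (hv : Sec C π b' v) (a : C.I) :
    ContinuousOn (grH (K.w a) (u 1 a) (v 1 a)) (C.Ω a) := fun z hz =>
  (grH_smooth (K.ku a) hz (hu.smooth 1 a z hz) (hv.smooth 1 a z hz)).continuousAt.continuousWithinAt

theorem inner_lap_cont (K : KM C) (hu : Sec C π b u) (hv : Sec C π b' v) (a : C.I) :
    ContinuousOn (fun z => @inner ℝ H _ (lapH (K.w a) (u 1 a) z) (v 1 a z)) (C.Ω a) := fun z hz =>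
  ((lapH_smooth (K.ku a) hz (hu.smooth 1 a z hz)).inner ℝ
    (hv.smooth 1 a z hz)).continuousAt.continuousWithinAt

theorem cw_symm (K : KM C) {a : C.I} {z : Cm n} (hz : z ∈ C.Ω a) (p q : Fin n × Bool) :
    cw (K.w a) z p q = cw (K.w a) z q p := by
  obtain ⟨j, α⟩ := p
  obtain ⟨k, β⟩ := q
  have h := inv_herm (K.ku a) hz j k
  have h1 : ((K.w a z)⁻¹ j k).re = ((K.w a z)⁻¹ k j).re := by rw [← h]; simp
  have h2 : ((K.w a z)⁻¹ j k).im = -((K.w a z)⁻¹ k j).im := by rw [← h]; simp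
  unfold cw cf
  cases α <;> cases β <;> simp [h1, h2]

theorem grH_symm' (K : KM C) {a : C.I} {z : Cm n} (hz : z ∈ C.Ω a) (f g : Cm n → H) :
    grH (K.w a) f g z = grH (K.w a) g f z := by
  unfold grH
  rw [Finset.sum_comm]
  refine Finset.sum_congr rfl fun p _ => Finset.sum_congr rfl fun q _ => ?_
  rw [cw_symm K hz q p, real_inner_comm]

/-- **T2a**: integration by parts on the base (literal of SpecT). -/
theorem ibp (P : PU C) (K : KM C) (hu : Sec C π b u) (hv : Sec C π 0 v) :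
    BInt P K (fun a z => @inner ℝ H _ (lapH (K.w a) (u 1 a) z) (v 1 a z)) =
      -BInt P K (fun a z => grH (K.w a) (u 1 a) (v 1 a) z) := by
  have h := ibp0 P K hu hv
  rw [BInt_add' P K (inner_lap_cont K hu hv) (grH_cont K hv hu)] at h
  rw [eq_neg_iff_add_eq_zero, ← h]
  congr 1
  exact BInt_congr P K fun a z hz => grH_symm' K (V_sub_Ω C a hz) _ _

end glob

end Vale.Agent.P284.H119.T
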