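import Vale.Agent.P284.H119.TIbp
import Vale.Agent.P284.H66.PP
import Mathlib.Analysis.InnerProductSpace.Orthonormal
import Mathlib.Analysis.InnerProductSpace.PiL2

/-! # P284, theorem T, row T2b (helper119): tools (finite-dimensional approximation, real letters) -/

open scoped Manifold ContDiff Topology Pointwise ComplexConjugate ComplexOrder Matrix InnerProductSpace
open Filter Set Metric MeasureTheory

noncomputable section

namespace Vale.Agent.P284.H119.T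

open Vale.Agent.P272.K Vale.Agent.P272.K.C2 Vale.Agent.P284.H248 Vale.Agent.P284.H894
  Vale.Agent.P284.H894.G Vale.Agent.P284.H894.V Vale.Agent.P284.H913.V Vale.Agent.P284.H359.V
  Vale.Agent.P284.H287.T Vale.Agent.P284.H66 Vale.Agent.P284.H66.S7 Vale.Agent.P284.H639.V
  Vale.Agent.P284.H66.TK

section approx

variable {H : Type} [NormedAddCommGroup H] [InnerProductSpace ℝ H]

/-- an orthonormal family which computes the inner products with the elements of a finite-dimensional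
subspace -/
theorem exists_onb (s : Set H) (hs : s.Finite) : ∃ (m : ℕ) (e : Fin m → H), Orthonormal ℝ e ∧
    ∀ x ∈ Submodule.span ℝ s, ∀ y, ⟪x, y⟫_ℝ = ∑ i, ⟪x, e i⟫_ℝ * ⟪y, e i⟫_ℝ := by
  set W := Submodule.span ℝ s with hW
  haveI : FiniteDimensional ℝ W := FiniteDimensional.span_of_finite ℝ hs
  set b := stdOrthonormalBasis ℝ W with hb
  refine ⟨Module.finrank ℝ W, fun i => (b i : H), ?_, ?_⟩
  · exact b.orthonormal.comp_linearIsometry W.subtypeₗᵢ
  · intro x hx y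
    have h1 : ∑ i, ⟪b i, (⟨x, hx⟩ : W)⟫_ℝ • b i = (⟨x, hx⟩ : W) := b.sum_repr' _
    have h2 := congrArg (Subtype.val) h1
    simp only [Submodule.coe_sum, Submodule.coe_smul] at h2
    have h3 : ∀ i, ⟪b i, (⟨x, hx⟩ : W)⟫_ℝ = ⟪(b i : H), x⟫_ℝ := fun i => rfl
    conv_lhs => rw [← h2]
    rw [sum_inner]
    refine Finset.sum_congr rfl fun i _ => ?_
    rw [real_inner_smul_left, h3, real_inner_comm x, real_inner_comm y]

theorem bessel2 {m : ℕ} {e : Fin m → H} (he : Orthonormal ℝ e) (x y : H) :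
    |∑ i, ⟪x, e i⟫_ℝ * ⟪y, e i⟫_ℝ| ≤ ‖x‖ * ‖y‖ := by
  have hx : ∀ x : H, ∑ i, ⟪x, e i⟫_ℝ ^ 2 ≤ ‖x‖ ^ 2 := by
    intro x
    have := he.sum_inner_products_le (s := Finset.univ) x
    refine le_trans (le_of_eq ?_) this
    refine Finset.sum_congr rfl fun i _ => ?_
    rw [real_inner_comm, Real.norm_eq_abs, sq_abs]
  have h1 := Finset.sum_mul_sq_le_sq_mul_sq Finset.univ (fun i => ⟪x, e i⟫_ℝ) fun i => ⟪y, e i⟫_ℝ
  have h2 : (∑ i, ⟪x, e i⟫_ℝ * ⟪y, e i⟫_ℝ) ^ 2 ≤ (‖x‖ * ‖y‖) ^ 2 := by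
    refine h1.trans ?_
    rw [mul_pow]
    exact mul_le_mul (hx x) (hx y) (Finset.sum_nonneg fun i _ => sq_nonneg _) (sq_nonneg _)
  exact abs_le_of_sq_le_sq h2 (by positivity)

theorem onb_err {m : ℕ} {e : Fin m → H} (he : Orthonormal ℝ e) {t : H}
    (ht : ∀ y, ⟪t, y⟫_ℝ = ∑ i, ⟪t, e i⟫_ℝ * ⟪y, e i⟫_ℝ) (x y : H) :
    |⟪x, y⟫_ℝ - ∑ i, ⟪x, e i⟫_ℝ * ⟪y, e i⟫_ℝ| ≤ 2 * ‖x - t‖ * ‖y‖ := by
  have h1 : ⟪x, y⟫_ℝ - ∑ i, ⟪x, e i⟫_ℝ * ⟪y, e i⟫_ℝ =
      ⟪x - t, y⟫_ℝ - ∑ i, ⟪x - t, e i⟫_ℝ * ⟪y, e i⟫_ℝ := by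
    simp only [inner_sub_left, sub_mul, Finset.sum_sub_distrib]
    rw [ht y]; ring
  rw [h1]
  have h2 := abs_real_inner_le_norm (x - t) y
  have h3 := bessel2 he (x - t) y
  calc _ ≤ |⟪x - t, y⟫_ℝ| + |∑ i, ⟪x - t, e i⟫_ℝ * ⟪y, e i⟫_ℝ| := abs_sub _ _
    _ ≤ _ := by linarith

/-- **Finite-dimensional approximation.** A bilinear integral identity which holds for all components
holds for the inner product. -/
theorem int_zero_of_comp {n : ℕ} {Q : Type} [Fintype Q] {U K0 : Set (Cm n)} (hU : MeasurableSet U)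
    (hK : IsCompact K0) (hKU : K0 ⊆ U) (m : Q → Cm n → ℝ) (x y : Q → Cm n → H)
    (hm : ∀ q, ContinuousOn (m q) K0) (hx : ∀ q, ContinuousOn (x q) K0)
    (hy : ∀ q, ContinuousOn (y q) K0) (h0 : ∀ z ∈ U, z ∉ K0 → ∀ q, x q z = 0)
    (hz : ∀ e : H, ∫ z in U, ∑ q, m q z * (⟪x q z, e⟫_ℝ * ⟪y q z, e⟫_ℝ) = 0) :
    ∫ z in U, ∑ q, m q z * ⟪x q z, y q z⟫_ℝ = 0 := by
  classical
  obtain ⟨M, hM⟩ : ∃ M, ∀ z ∈ K0, ‖∑ q, |m q z| * ‖y q z‖‖ ≤ M :=
    hK.exists_bound_of_continuousOn (continuousOn_finsetSum _ fun q _ => (hm q).abs.mul (hy q).norm)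
  have hM0 : ∀ z ∈ K0, ∑ q, |m q z| * ‖y q z‖ ≤ M := fun z hz =>
    (le_abs_self _).trans (hM z hz)
  -- integrability
  have hI : IntegrableOn (fun z => ∑ q, m q z * ⟪x q z, y q z⟫_ℝ) U := by
    refine ((continuousOn_finsetSum _ fun q _ =>
      (hm q).mul ((hx q).inner (𝕜 := ℝ) (hy q))).integrableOn_compact hK).of_forall_sdiff_eq_zero hU
        fun z hz => ?_
    refine Finset.sum_eq_zero fun q _ => ?_
    simp [h0 z hz.1 hz.2 q]
  have hIe : ∀ e : H, IntegrableOn (fun z => ∑ q, m q z * (⟪x q z, e⟫_ℝ * ⟪y q z, e⟫_ℝ)) U := by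
    intro e
    refine ((continuousOn_finsetSum _ fun q _ => (hm q).mul
      (((hx q).inner (𝕜 := ℝ) continuousOn_const).mul
      ((hy q).inner (𝕜 := ℝ) continuousOn_const))).integrableOn_compact hK).of_forall_sdiff_eq_zero hU
        fun z hz => ?_
    refine Finset.sum_eq_zero fun q _ => ?_
    simp [h0 z hz.1 hz.2 q]
  set I := ∫ z in U, ∑ q, m q z * ⟪x q z, y q z⟫_ℝ with hIdef
  set A : ℝ := 2 * |M| * volume.real K0 with hA
  have hA0 : 0 ≤ A := by positivity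
  have key : ∀ ε : ℝ, 0 < ε → |I| ≤ ε * A := by
    intro ε hε
    -- a finite net
    have hnet : ∀ q, ∃ t : Set H, t.Finite ∧ x q '' K0 ⊆ ⋃ y ∈ t, ball y ε := fun q =>
      Metric.totallyBounded_iff.1 (hK.image_of_continuousOn (hx q)).totallyBounded ε hε
    choose t htf htc using hnet
    obtain ⟨k, e, he, hspan⟩ := exists_onb (⋃ q, t q) (Set.finite_iUnion htf)
    have h1 : I = ∫ z in U, (∑ q, m q z * ⟪x q z, y q z⟫_ℝ -
        ∑ i, ∑ q, m q z * (⟪x q z, e i⟫_ℝ * ⟪y q z, e i⟫_ℝ)) := by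
      rw [integral_sub hI (integrable_finsetSum _ fun i _ => hIe (e i)),
        integral_finsetSum _ fun i _ => hIe (e i)]
      simp only [hz]
      simp [hIdef]
    have h2 : ∀ z, ∑ q, m q z * ⟪x q z, y q z⟫_ℝ -
        ∑ i, ∑ q, m q z * (⟪x q z, e i⟫_ℝ * ⟪y q z, e i⟫_ℝ) =
        ∑ q, m q z * (⟪x q z, y q z⟫_ℝ - ∑ i, ⟪x q z, e i⟫_ℝ * ⟪y q z, e i⟫_ℝ) := by
      intro z
      rw [Finset.sum_comm, ← Finset.sum_sub_distrib]
      refine Finset.sum_congr rfl fun q _ => ?_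
      rw [mul_sub, Finset.mul_sum]
    have h3 : ∀ z ∈ K0, ‖∑ q, m q z * (⟪x q z, y q z⟫_ℝ -
        ∑ i, ⟪x q z, e i⟫_ℝ * ⟪y q z, e i⟫_ℝ)‖ ≤ 2 * ε * |M| := by
      intro z hz
      have h4 : ∀ q, |⟪x q z, y q z⟫_ℝ - ∑ i, ⟪x q z, e i⟫_ℝ * ⟪y q z, e i⟫_ℝ| ≤
          2 * ε * ‖y q z‖ := by
        intro q
        have h5 := htc q (Set.mem_image_of_mem (x q) hz)
        simp only [Set.mem_iUnion, mem_ball, exists_prop] at h5
        obtain ⟨t', ht', hd⟩ := h5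
        have h6 := onb_err he (hspan t' (Submodule.subset_span (Set.mem_iUnion.2 ⟨q, ht'⟩)))
          (x q z) (y q z)
        rw [dist_eq_norm] at hd
        refine h6.trans ?_
        have := norm_nonneg (y q z)
        nlinarith
      calc _ ≤ ∑ q, ‖m q z * (⟪x q z, y q z⟫_ℝ - ∑ i, ⟪x q z, e i⟫_ℝ * ⟪y q z, e i⟫_ℝ)‖ :=
            norm_sum_le _ _
        _ ≤ ∑ q, 2 * ε * (|m q z| * ‖y q z‖) := by
            refine Finset.sum_le_sum fun q _ => ?_
            rw [norm_mul, Real.norm_eq_abs, Real.norm_eq_abs]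
            have := mul_le_mul_of_nonneg_left (h4 q) (abs_nonneg (m q z))
            linarith
        _ = 2 * ε * ∑ q, |m q z| * ‖y q z‖ := by rw [Finset.mul_sum]
        _ ≤ 2 * ε * |M| := by
            refine mul_le_mul_of_nonneg_left ((hM0 z hz).trans (le_abs_self M)) (by positivity)
    rw [h1]
    simp only [h2]
    rw [setIntegral_eq_of_subset_of_forall_sdiff_eq_zero hU hKU fun z hz => ?_]
    · have h7 := norm_setIntegral_le_of_norm_le_const (μ := volume) hK.measure_lt_top h3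
      rw [Real.norm_eq_abs] at h7
      refine h7.trans (le_of_eq ?_)
      rw [hA]; ring
    · refine Finset.sum_eq_zero fun q _ => ?_
      rw [h0 z hz.1 hz.2 q]
      simp
  by_contra hne
  have hpos : 0 < |I| := abs_pos.2 hne
  have h8 := key (|I| / (2 * (A + 1))) (by positivity)
  have h9 : |I| / (2 * (A + 1)) * A ≤ |I| / 2 := by
    rw [div_mul_eq_mul_div, div_le_div_iff₀ (by positivity) (by norm_num)]
    nlinarith
  linarith

end approx

section letters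

variable {n : ℕ}

/-- the `(1,1)` matrix of a real tensor -/
def Xm (x : Fin n × Bool → Fin n × Bool → ℝ) : Matrix (Fin n) (Fin n) ℂ :=
  Matrix.of fun r l : Fin n => (∑ α : Bool, ∑ β : Bool, sg α β * ((x (r, α) (l, β) : ℝ) : ℂ)) / 4

theorem Xm_eq (x : Fin n × Bool → Fin n × Bool → ℝ) :
    Xm x = ∑ a : Fin n × Bool, ∑ b : Fin n × Bool,
      ((x a b : ℝ) : ℂ) • Matrix.single a.1 b.1 (sg a.2 b.2 / 4) := by
  ext r l
  simp only [Xm, Matrix.of_apply, Matrix.sum_apply, Matrix.smul_apply, smul_eq_mul]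
  rw [Fintype.sum_prod_type]
  rw [Finset.sum_eq_single r]
  · rw [Finset.sum_div]
    refine Finset.sum_congr rfl fun α _ => ?_
    rw [Fintype.sum_prod_type, Finset.sum_eq_single l]
    · rw [Finset.sum_div]
      refine Finset.sum_congr rfl fun β _ => ?_
      simp only [Matrix.single_apply_same]
      ring
    · intro l' _ hl'
      refine Finset.sum_eq_zero fun β _ => ?_
      rw [Matrix.single_apply_of_ne _ _ _ _ _ (by simp [hl']), mul_zero]
    · intro h; exact absurd (Finset.mem_univ _) h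
  · intro r' _ hr'
    refine Finset.sum_eq_zero fun α _ => Finset.sum_eq_zero fun b _ => ?_
    rw [Matrix.single_apply_of_ne _ _ _ _ _ (by simp [hr']), mul_zero]
  · intro h; exact absurd (Finset.mem_univ _) h

theorem tr_single (g : Matrix (Fin n) (Fin n) ℂ) (i j : Fin n) (s : ℂ) :
    (g * Matrix.single i j s).trace = g j i * s := by
  rw [Matrix.trace]
  simp only [Matrix.diag_apply]
  rw [Finset.sum_eq_single j]
  · rw [Matrix.mul_single_apply_same]
  · intro p _ hp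
    rw [Matrix.mul_single_apply_of_ne _ _ _ _ _ hp]
  · intro h; exact absurd (Finset.mem_univ _) h

theorem tr_single2 (g : Matrix (Fin n) (Fin n) ℂ) (i j k l : Fin n) (s t : ℂ) :
    (g * Matrix.single i j s * (g * Matrix.single k l t)).trace = g l i * g j k * s * t := by
  rw [← Matrix.mul_assoc, tr_single, Matrix.mul_apply, Finset.sum_eq_single j]
  · rw [Matrix.mul_single_apply_same]; ring
  · intro p _ hp
    rw [Matrix.mul_single_apply_of_ne _ _ _ _ _ hp, zero_mul]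
  · intro h; exact absurd (Finset.mem_univ _) h

/-- bilinear expansion -/
theorem tr2_Xm (g : Matrix (Fin n) (Fin n) ℂ) (x y : Fin n × Bool → Fin n × Bool → ℝ) :
    (g * Xm x * (g * Xm y)).trace = ∑ a : Fin n × Bool, ∑ b : Fin n × Bool, ∑ c : Fin n × Bool,
      ∑ d : Fin n × Bool, (1 / 16) * (g d.1 a.1 * g b.1 c.1 * sg a.2 b.2 * sg c.2 d.2) *
        ((x a b * y c d : ℝ) : ℂ) := by
  have h1 : ∀ Y : Matrix (Fin n) (Fin n) ℂ, (g * Xm x * (g * Y)).trace =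
      ∑ a : Fin n × Bool, ∑ b : Fin n × Bool, ((x a b : ℝ) : ℂ) *
        (g * Matrix.single a.1 b.1 (sg a.2 b.2 / 4) * (g * Y)).trace := by
    intro Y
    rw [Xm_eq x]
    simp only [Matrix.mul_sum, Matrix.sum_mul, Matrix.trace_sum, Matrix.mul_smul, Matrix.smul_mul,
      Matrix.trace_smul, smul_eq_mul]
  have h2 : ∀ X : Matrix (Fin n) (Fin n) ℂ, (g * X * (g * Xm y)).trace =
      ∑ c : Fin n × Bool, ∑ d : Fin n × Bool, ((y c d : ℝ) : ℂ) *
        (g * X * (g * Matrix.single c.1 d.1 (sg c.2 d.2 / 4))).trace := by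
    intro X
    rw [Xm_eq y]
    simp only [Matrix.mul_sum, Matrix.trace_sum, Matrix.mul_smul, Matrix.trace_smul, smul_eq_mul]
  rw [h1]
  refine Finset.sum_congr rfl fun a _ => Finset.sum_congr rfl fun b _ => ?_
  rw [h2, Finset.mul_sum]
  refine Finset.sum_congr rfl fun c _ => ?_
  rw [Finset.mul_sum]
  refine Finset.sum_congr rfl fun d _ => ?_
  rw [tr_single2]
  push_cast
  ring

theorem tr_Xm (g : Matrix (Fin n) (Fin n) ℂ) (x : Fin n × Bool → Fin n × Bool → ℝ) :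
    (g * Xm x).trace = ∑ a : Fin n × Bool, ∑ b : Fin n × Bool,
      (1 / 4) * (g b.1 a.1 * sg a.2 b.2) * ((x a b : ℝ) : ℂ) := by
  rw [Xm_eq x]
  simp only [Matrix.mul_sum, Matrix.trace_sum, Matrix.mul_smul, Matrix.trace_smul, tr_single,
    smul_eq_mul]
  refine Finset.sum_congr rfl fun a _ => Finset.sum_congr rfl fun b _ => ?_
  ring

/-- the coefficients of `q` -/
def MM (g : Matrix (Fin n) (Fin n) ℂ) (a b c d : Fin n × Bool) : ℝ :=
  (1 / 16) * ((g b.1 a.1 * g d.1 c.1 - g d.1 a.1 * g b.1 c.1) * sg a.2 b.2 * sg c.2 d.2).re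

theorem qq_Xm (g : Matrix (Fin n) (Fin n) ℂ) (x y : Fin n × Bool → Fin n × Bool → ℝ) :
    (qq g (Xm x) (Xm y)).re = ∑ a : Fin n × Bool, ∑ b : Fin n × Bool, ∑ c : Fin n × Bool,
      ∑ d : Fin n × Bool, MM g a b c d * (x a b * y c d) := by
  unfold qq
  have e1 : ∀ A B : Fin n × Bool → Fin n × Bool → ℂ, (∑ a, ∑ b, A a b) * (∑ c, ∑ d, B c d) =
      ∑ a, ∑ b, ∑ c, ∑ d, A a b * B c d := by
    intro A B
    rw [Finset.sum_mul]
    refine Finset.sum_congr rfl fun a _ => ?_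
    rw [Finset.sum_mul]
    refine Finset.sum_congr rfl fun b _ => ?_
    rw [Finset.mul_sum]
    refine Finset.sum_congr rfl fun c _ => ?_
    rw [Finset.mul_sum]
  rw [tr2_Xm, tr_Xm, tr_Xm, e1]
  rw [← Finset.sum_sub_distrib, Complex.re_sum]
  refine Finset.sum_congr rfl fun a _ => ?_
  rw [← Finset.sum_sub_distrib, Complex.re_sum]
  refine Finset.sum_congr rfl fun b _ => ?_
  rw [← Finset.sum_sub_distrib, Complex.re_sum]
  refine Finset.sum_congr rfl fun c _ => ?_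
  rw [← Finset.sum_sub_distrib, Complex.re_sum]
  refine Finset.sum_congr rfl fun d _ => ?_
  have : (1 / 4) * (g b.1 a.1 * sg a.2 b.2) * ((x a b : ℝ) : ℂ) *
      ((1 / 4) * (g d.1 c.1 * sg c.2 d.2) * ((y c d : ℝ) : ℂ)) -
      (1 / 16) * (g d.1 a.1 * g b.1 c.1 * sg a.2 b.2 * sg c.2 d.2) * ((x a b * y c d : ℝ) : ℂ) =
      ((1 / 16 * (x a b * y c d) : ℝ) : ℂ) *
        ((g b.1 a.1 * g d.1 c.1 - g d.1 a.1 * g b.1 c.1) * sg a.2 b.2 * sg c.2 d.2) := by
    push_cast; ring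
  rw [this, Complex.re_ofReal_mul, MM]
  ring

end letters

end Vale.Agent.P284.H119.T
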