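import Vale.Agent.P284.H119.TK0
import Vale.Agent.P284.H287.T.Calc

/-! # P284, theorem T, row T2b (helper119): the Kähler identity for sections with values in a Hilbert
space -/

open scoped Manifold ContDiff Topology Pointwise ComplexConjugate ComplexOrder Matrix InnerProductSpace
open Filter Set Metric MeasureTheory

noncomputable section

namespace Vale.Agent.P284.H119.T

open Vale.Agent.P272.K Vale.Agent.P272.K.C2 Vale.Agent.P284.H248 Vale.Agent.P284.H894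
  Vale.Agent.P284.H894.G Vale.Agent.P284.H894.V Vale.Agent.P284.H913.V Vale.Agent.P284.H359.V
  Vale.Agent.P284.H66 Vale.Agent.P284.H66.S7 Vale.Agent.P284.H639.V
  Vale.Agent.P284.H66.TK

open Vale.Agent.P284.H287.T (cw dH ddH sg grH lapH hhH Sec cmp Good exists_good exists_good₂
  cHess_eq ddH_cmp dH_cmp cmp_contDiffAt inner_lapH)

section loc

variable {n : ℕ} {H : Type} [NormedAddCommGroup H] [InnerProductSpace ℝ H] {z : Cm n}
  {u v : Cm n → H} {χ : Cm n → ℝ}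

/-- `D_a (χ D_b u)` -/
def xx (χ : Cm n → ℝ) (u : Cm n → H) (z : Cm n) (a b : Fin n × Bool) : H :=
  χ z • ddH u z a b + dH χ z a • dH u z b

theorem xx_smooth (hχ : ContDiffAt ℝ ∞ χ z) (hu : ContDiffAt ℝ ∞ u z) (a b : Fin n × Bool) :
    ContDiffAt ℝ ∞ (fun y => xx χ u y a b) z :=
  (hχ.smul (ddH_smooth hu a b)).add ((dH_smooth hχ a).smul (dH_smooth hu b))

theorem xx_span {m : ℕ} {e : Fin m → H} (h : Good u z e) (a b : Fin n × Bool) (y : H) :
    ⟪xx χ u z a b, y⟫_ℝ = ∑ i, ⟪xx χ u z a b, e i⟫_ℝ * ⟪y, e i⟫_ℝ := by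
  unfold xx
  simp only [inner_add_left, real_inner_smul_left, add_mul, Finset.sum_add_distrib, mul_assoc]
  rw [h.d2 a b y, h.d1 b y, Finset.mul_sum, Finset.mul_sum]

theorem dH_smul_const (hχ : DifferentiableAt ℝ χ z) (e : H) (a : Fin n × Bool) :
    dH (fun y => χ y • e) z a = dH χ z a • e := by
  unfold dH
  have := (hχ.hasFDerivAt.smul_const e).fderiv
  rw [this]
  rfl

theorem pd_xx (hχ : ContDiffAt ℝ ∞ χ z) (hu : ContDiffAt ℝ ∞ u z) (e : H) :
    pd (al u (fun y => χ y • e)) z = Xm fun a b => ⟪xx χ u z a b, e⟫_ℝ := by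
  ext r l
  have h1 := pd_al (v := fun y => χ y • e) hu (hχ.smul contDiffAt_const) r l
  rw [h1]
  simp only [Xm, Matrix.of_apply]
  congr 1
  refine Finset.sum_congr rfl fun α _ => Finset.sum_congr rfl fun β _ => ?_
  rw [dH_smul_const (hχ.differentiableAt (by simp))]
  congr 2
  rw [xx, inner_add_left, real_inner_smul_left, real_inner_smul_left, real_inner_smul_right,
    real_inner_smul_right]

theorem xx_one (a b : Fin n × Bool) : xx (fun _ : Cm n => (1 : ℝ)) v z a b = ddH v z a b := by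
  unfold xx dH
  simp

theorem pd_one (hv : ContDiffAt ℝ ∞ v z) (e : H) :
    pd (al v (fun _ => e)) z = Xm fun a b => ⟪ddH v z a b, e⟫_ℝ := by
  have h := pd_xx (χ := fun _ => (1 : ℝ)) contDiffAt_const hv e
  simp only [xx_one, one_smul] at h
  exact h

theorem cHess_Xm (hv : ContDiffAt ℝ 2 v z) (e : H) :
    cHess (cmp v e) z = Xm fun a b => ⟪ddH v z a b, e⟫_ℝ := by
  ext r l
  rw [cHess_eq (cmp_contDiffAt hv e)]
  simp only [Xm, Matrix.of_apply, ddH_cmp hv]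
  ring

/-- the density -/
def BB (g : Matrix (Fin n) (Fin n) ℂ) (x y : Fin n × Bool → Fin n × Bool → H) : ℝ :=
  ∑ a, ∑ b, ∑ c, ∑ d, MM g a b c d * ⟪x a b, y c d⟫_ℝ

theorem BB_comp (g : Matrix (Fin n) (Fin n) ℂ) {x y : Fin n × Bool → Fin n × Bool → H} {m : ℕ}
    {e : Fin m → H} (hx : ∀ a b y, ⟪x a b, y⟫_ℝ = ∑ i, ⟪x a b, e i⟫_ℝ * ⟪y, e i⟫_ℝ) :
    BB g x y = ∑ i, (qq g (Xm fun a b => ⟪x a b, e i⟫_ℝ) (Xm fun c d => ⟪y c d, e i⟫_ℝ)).re := by
  have h : ∑ i, (qq g (Xm fun a b => ⟪x a b, e i⟫_ℝ) (Xm fun c d => ⟪y c d, e i⟫_ℝ)).re =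
      ∑ i, ∑ a, ∑ b, ∑ c, ∑ d, MM g a b c d * (⟪x a b, e i⟫_ℝ * ⟪y c d, e i⟫_ℝ) :=
    Finset.sum_congr rfl fun i _ => qq_Xm g _ _
  rw [h, H287.T.sum5]
  unfold BB
  refine Finset.sum_congr rfl fun a _ => Finset.sum_congr rfl fun b _ =>
    Finset.sum_congr rfl fun c _ => Finset.sum_congr rfl fun d _ => ?_
  rw [← Finset.mul_sum, ← hx]

/-- change of coordinates for the `(0,1)`-form -/
theorem al_change {T : Cm n → Cm n} (hT : DifferentiableAt ℂ T z) {A : H ≃ₗᵢ[ℝ] H} {c : H}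
    {u' v' : Cm n → H} (hu : DifferentiableAt ℝ u z) (hu' : DifferentiableAt ℝ u' (T z))
    (eu : ∀ᶠ y in 𝓝 z, u y = A (u' (T y)) + c) (ev : v z = A (v' (T z))) :
    al u v z = (jmat T z)ᴴ *ᵥ al u' v' (T z) := by
  set k : ℝ := ⟪c, v z⟫_ℝ with hk
  set f : Cm n → ℝ := fun y => ⟪u y, v z⟫_ℝ - k with hf
  set f' : Cm n → ℝ := fun y => ⟪u' y, v' (T z)⟫_ℝ with hf'
  have he : ∀ᶠ y in 𝓝 z, f y = f' (T y) := by
    filter_upwards [eu] with y hy
    simp only [hf, hf', hy, inner_add_left]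
    rw [← hk, add_sub_assoc, sub_self, add_zero, ev]
    exact A.inner_map_map _ _
  have hf'd : DifferentiableAt ℝ f' (T z) := hu'.inner ℝ (differentiableAt_const _)
  have h1 := H730.V.dd_comp hT hf'd he
  funext l
  rw [al_eq hu]
  have e1 : dzb l (fun y => ((⟪u y, v z⟫_ℝ : ℝ) : ℂ)) z = dzb l (fun y => (f y : ℂ)) z := by
    unfold dzb
    have : (fun y => (f y : ℂ)) = fun y => ((⟪u y, v z⟫_ℝ : ℝ) : ℂ) - (k : ℂ) := by
      ext y; simp [hf]
    rw [this, fderiv_sub_const]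
  rw [e1, dzb_vec, h1]
  simp only [Matrix.mulVec, dotProduct, Matrix.conjTranspose_apply, Matrix.transpose_apply, map_sum,
    map_mul]
  refine Finset.sum_congr rfl fun q _ => ?_
  rw [← dzb_vec, al_eq hu']
  rfl

/-- change of coordinates for the `(1,1)` matrix -/
theorem xx_change {T : Cm n → Cm n} (hT : ∀ᶠ y in 𝓝 z, DifferentiableAt ℂ T y) {A : H ≃ₗᵢ[ℝ] H}
    {c : H} {u' : Cm n → H} {χ' : Cm n → ℝ} (hu : ContDiffAt ℝ ∞ u z)
    (hu' : ContDiffAt ℝ ∞ u' (T z)) (hχ : ContDiffAt ℝ ∞ χ z) (hχ' : ContDiffAt ℝ ∞ χ' (T z))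
    (eu : ∀ᶠ y in 𝓝 z, u y = A (u' (T y)) + c) (eχ : ∀ᶠ y in 𝓝 z, χ y = χ' (T y)) (e : H) :
    (Xm fun a b => ⟪xx χ u z a b, e⟫_ℝ) =
      (jmat T z)ᵀ * (Xm fun a b => ⟪xx χ' u' (T z) a b, A.symm e⟫_ℝ) *
        (jmat T z).map (starRingEnd ℂ) := by
  rw [← pd_xx hχ hu, ← pd_xx hχ' hu']
  have hTz : ContinuousAt T z := hT.self_of_nhds.continuousAt
  refine pd_comp (T := T) hT
    (fun l => (al_smooth hu' (hχ'.smul contDiffAt_const) l).differentiableAt (by simp)) ?_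
  have d1 : ∀ᶠ y in 𝓝 z, DifferentiableAt ℝ u y := by
    filter_upwards [(hu.of_le H639.V.two_le).eventually (by simp)] with y hy
    exact hy.differentiableAt (by norm_num)
  have d2 : ∀ᶠ y in 𝓝 z, DifferentiableAt ℝ u' (T y) := by
    refine hTz.eventually ?_
    filter_upwards [(hu'.of_le H639.V.two_le).eventually (by simp)] with y hy
    exact hy.differentiableAt (by norm_num)
  filter_upwards [hT, d1, d2, eu.eventually_nhds, eχ] with y hTy h1 h2 h3 h4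
  refine al_change hTy h1 h2 h3 ?_
  rw [h4, map_smul, LinearIsometryEquiv.apply_symm_apply]

/-- change of coordinates for the density -/
theorem BB_change {T : Cm n → Cm n} (hT : ∀ᶠ y in 𝓝 z, DifferentiableAt ℂ T y) {A : H ≃ₗᵢ[ℝ] H}
    {c c' : H} {u' v' : Cm n → H} {χ' : Cm n → ℝ} (hu : ContDiffAt ℝ ∞ u z)
    (hu' : ContDiffAt ℝ ∞ u' (T z)) (hv : ContDiffAt ℝ ∞ v z)
    (hv' : ContDiffAt ℝ ∞ v' (T z)) (hχ : ContDiffAt ℝ ∞ χ z) (hχ' : ContDiffAt ℝ ∞ χ' (T z))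
    (eu : ∀ᶠ y in 𝓝 z, u y = A (u' (T y)) + c) (ev : ∀ᶠ y in 𝓝 z, v y = A (v' (T y)) + c')
    (eχ : ∀ᶠ y in 𝓝 z, χ y = χ' (T y)) {g g' : Matrix (Fin n) (Fin n) ℂ}
    (hg : (jmat T z).map (starRingEnd ℂ) * g * (jmat T z)ᵀ = g') :
    BB g (xx χ u z) (ddH v z) = BB g' (xx χ' u' (T z)) (ddH v' (T z)) := by
  obtain ⟨m, e, h1, h2⟩ := exists_good₂ u z (fun y => A (u' y) + 0) (T z)
  have h3 : ∀ a b y, ⟪xx χ' u' (T z) a b, y⟫_ℝ =
      ∑ i, ⟪xx χ' u' (T z) a b, A.symm (e i)⟫_ℝ * ⟪y, A.symm (e i)⟫_ℝ := by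
    intro a b y
    have h4 := xx_span (χ := χ') h2 a b (A y)
    have h5 : xx χ' (fun y => A (u' y) + 0) (T z) a b = A (xx χ' u' (T z) a b) := by
      unfold xx
      rw [H287.T.ddH_iso, H287.T.dH_iso, map_add, map_smul, map_smul]
    rw [h5] at h4
    have h6 : ∀ x y : H, ⟪A x, y⟫_ℝ = ⟪x, A.symm y⟫_ℝ := by
      intro x y
      rw [← A.inner_map_map x (A.symm y), A.apply_symm_apply]
    rw [h6, A.symm_apply_apply] at h4
    rw [h4]
    refine Finset.sum_congr rfl fun i _ => ?_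
    rw [h6, h6]
  rw [BB_comp g (xx_span h1), BB_comp g' h3]
  refine Finset.sum_congr rfl fun i _ => ?_
  have e2 := xx_change hT hu hu' hχ hχ' eu eχ (e i)
  have e3 := xx_change (χ := fun _ => (1 : ℝ)) (χ' := fun _ => (1 : ℝ)) hT hv hv' contDiffAt_const
    contDiffAt_const ev (Eventually.of_forall fun _ => rfl) (e i)
  simp only [xx_one] at e3
  rw [e2, e3, qq_pull, hg]

theorem MM_smooth {U : Set (Cm n)} {w : Cm n → Matrix (Fin n) (Fin n) ℂ} (hw : KU U w) (hz : z ∈ U)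
    (a b c d : Fin n × Bool) : ContDiffAt ℝ ∞ (fun y => MM (w y)⁻¹ a b c d) z := by
  unfold MM
  refine contDiffAt_const.mul (re_smooth ?_)
  exact ((((inv_smooth hw hz _ _).mul (inv_smooth hw hz _ _)).sub
    ((inv_smooth hw hz _ _).mul (inv_smooth hw hz _ _))).mul contDiffAt_const).mul contDiffAt_const

theorem BB_smooth {U : Set (Cm n)} {w : Cm n → Matrix (Fin n) (Fin n) ℂ} (hw : KU U w) (hz : z ∈ U)
    (hχ : ContDiffAt ℝ ∞ χ z) (hu : ContDiffAt ℝ ∞ u z) (hv : ContDiffAt ℝ ∞ v z) :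
    ContDiffAt ℝ ∞ (fun y => BB (w y)⁻¹ (xx χ u y) (ddH v y)) z := by
  unfold BB
  refine ContDiffAt.sum fun a _ => ContDiffAt.sum fun b _ => ContDiffAt.sum fun c _ =>
    ContDiffAt.sum fun d _ => ?_
  exact (MM_smooth hw hz a b c d).mul ((xx_smooth hχ hu a b).inner ℝ (ddH_smooth hv c d))

theorem mc_al (hv : ContDiffAt ℝ ∞ v z) {e : H} (i j : Fin n) :
    ContDiffAt ℝ ∞ (fun y => pd (al v (fun _ => e)) y i j) z :=
  contDiffAt_dz (m := ∞) i (al_smooth hv contDiffAt_const j) (by norm_num)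

theorem al_closed (hv : ContDiffAt ℝ ∞ v z) {e : H} (i k l : Fin n) :
    dz i (fun y => pd (al v (fun _ => e)) y k l) z = dz k (fun y => pd (al v (fun _ => e)) y i l) z :=
  dz_dz_comm i k ((al_smooth hv contDiffAt_const l).of_le H639.V.two_le)

/-- the identity in a chart -/
theorem loc_int {U : Set (Cm n)} {w : Cm n → Matrix (Fin n) (Fin n) ℂ} (hw : KU U w)
    (hχ : ∀ z ∈ U, ContDiffAt ℝ ∞ χ z) (hu : ∀ z ∈ U, ContDiffAt ℝ ∞ u z)
    (hv : ∀ z ∈ U, ContDiffAt ℝ ∞ v z) {K0 : Set (Cm n)} (hK0 : IsCompact K0) (hKU : K0 ⊆ U)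
    (h0 : ∀ z ∉ K0, χ z = 0) :
    ∫ z in U, BB (w z)⁻¹ (xx χ u z) (ddH v z) * vol w z = 0 := by
  have hχ0 : ∀ z ∉ K0, χ =ᶠ[𝓝 z] fun _ => 0 := by
    intro z hz
    filter_upwards [hK0.isClosed.isOpen_compl.mem_nhds hz] with y hy
    exact h0 y hy
  set Q := (Fin n × Bool) × (Fin n × Bool) × (Fin n × Bool) × (Fin n × Bool) with hQ
  have e1 : ∀ F : Fin n × Bool → Fin n × Bool → Fin n × Bool → Fin n × Bool → ℝ,
      ∑ q : Q, F q.1 q.2.1 q.2.2.1 q.2.2.2 = ∑ a, ∑ b, ∑ c, ∑ d, F a b c d := by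
    intro F
    rw [Fintype.sum_prod_type]
    refine Finset.sum_congr rfl fun a _ => ?_
    rw [Fintype.sum_prod_type]
    refine Finset.sum_congr rfl fun b _ => ?_
    rw [Fintype.sum_prod_type]
  have key := int_zero_of_comp (H := H) (Q := Q) hw.isOpen.measurableSet hK0 hKU
    (fun q z => MM (w z)⁻¹ q.1 q.2.1 q.2.2.1 q.2.2.2 * vol w z)
    (fun q z => xx χ u z q.1 q.2.1) (fun q z => ddH v z q.2.2.1 q.2.2.2)
    (fun q z hz => ((MM_smooth hw (hKU hz) _ _ _ _).mul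
      (smooth_vol hw (hKU hz))).continuousAt.continuousWithinAt)
    (fun q z hz => (xx_smooth (hχ z (hKU hz)) (hu z (hKU hz)) _ _).continuousAt.continuousWithinAt)
    (fun q z hz => (ddH_smooth (hv z (hKU hz)) _ _).continuousAt.continuousWithinAt)
    (fun z hz hzK q => by
      show xx χ u z q.1 q.2.1 = 0
      unfold xx dH
      rw [(hχ0 z hzK).fderiv_eq, h0 z hzK]
      simp) ?_
  · rw [← key]
    refine setIntegral_congr_fun hw.isOpen.measurableSet fun z hz => ?_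
    rw [e1 fun a b c d => MM (w z)⁻¹ a b c d * vol w z * ⟪xx χ u z a b, ddH v z c d⟫_ℝ]
    unfold BB
    simp only [Finset.sum_mul]
    refine Finset.sum_congr rfl fun a _ => Finset.sum_congr rfl fun b _ =>
      Finset.sum_congr rfl fun c _ => Finset.sum_congr rfl fun d _ => ?_
    ring
  · intro e
    have h1 := pp_local hw (Z := fun z => pd (al v (fun _ => e)) z)
      (fun z hz i j => mc_al (hv z hz) i j)
      (fun z hz i k l => al_closed (hv z hz) i k l) (a := al u (fun y => χ y • e)) hK0 hKU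
      (fun z hz l => al_smooth (hu z hz) ((hχ z hz).smul contDiffAt_const) l)
      (fun z hz l => by
        simp [al, h0 z hz])
    rw [← h1]
    refine setIntegral_congr_fun hw.isOpen.measurableSet fun z hz => ?_
    rw [pd_xx (hχ z hz) (hu z hz), pd_one (hv z hz), qq_Xm,
      e1 fun a b c d => MM (w z)⁻¹ a b c d * vol w z * (⟪xx χ u z a b, e⟫_ℝ * ⟪ddH v z c d, e⟫_ℝ)]
    simp only [Finset.sum_mul]
    refine Finset.sum_congr rfl fun a _ => Finset.sum_congr rfl fun b _ =>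
      Finset.sum_congr rfl fun c _ => Finset.sum_congr rfl fun d _ => ?_
    ring

end loc

end Vale.Agent.P284.H119.T
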