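import Vale.Agent.P284.H119.TKah
import Vale.Agent.P284.H409.T.Spec

/-! # P284, theorem T, row T2 (helper119): the global Kähler identity, `T2Stmt` -/

open scoped Manifold ContDiff Topology Pointwise ComplexConjugate ComplexOrder Matrix InnerProductSpace
open Filter Set Metric MeasureTheory

noncomputable section

namespace Vale.Agent.P284.H119.T

open Vale.Agent.P272.K Vale.Agent.P272.K.C2 Vale.Agent.P284.H248 Vale.Agent.P284.H894
  Vale.Agent.P284.H894.G Vale.Agent.P284.H894.V Vale.Agent.P284.H913.V Vale.Agent.P284.H359.V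
  Vale.Agent.P284.H66 Vale.Agent.P284.H66.S7 Vale.Agent.P284.H639.V
  Vale.Agent.P284.H66.TK

open Vale.Agent.P284.H287.T (cw dH ddH sg grH lapH hhH Sec cmp Good exists_good exists_good₂
  cHess_eq ddH_cmp dH_cmp cmp_contDiffAt inner_lapH)

section loc

variable {n : ℕ} {H : Type} [NormedAddCommGroup H] [InnerProductSpace ℝ H] {z : Cm n}
  {u v : Cm n → H} {χ χ' : Cm n → ℝ}

theorem xx_congr (h : χ =ᶠ[𝓝 z] χ') (u : Cm n → H) : xx χ u z = xx χ' u z := by
  funext a b
  unfold xx dH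
  rw [h.fderiv_eq, h.self_of_nhds]

theorem xx_zero (h : χ =ᶠ[𝓝 z] fun _ => 0) (u : Cm n → H) : xx χ u z = 0 := by
  rw [xx_congr h u]
  funext a b
  unfold xx dH
  simp

theorem BB_zero (g : Matrix (Fin n) (Fin n) ℂ) (y : Fin n × Bool → Fin n × Bool → H) :
    BB g 0 y = 0 := by
  unfold BB
  simp

theorem BB_sum (g : Matrix (Fin n) (Fin n) ℂ) {ι : Type*} [Fintype ι]
    (x : ι → Fin n × Bool → Fin n × Bool → H) (y : Fin n × Bool → Fin n × Bool → H) :
    BB g (fun a b => ∑ i, x i a b) y = ∑ i, BB g (x i) y := by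
  unfold BB
  rw [H287.T.sum5]
  refine Finset.sum_congr rfl fun a _ => Finset.sum_congr rfl fun b _ =>
    Finset.sum_congr rfl fun c _ => Finset.sum_congr rfl fun d _ => ?_
  rw [sum_inner, Finset.mul_sum]

/-- the density in the invariant letters -/
theorem BB_eq {w : Cm n → Matrix (Fin n) (Fin n) ℂ} (hw : (w z).PosDef) (hu : ContDiffAt ℝ 2 u z)
    (hv : ContDiffAt ℝ 2 v z) : BB (w z)⁻¹ (ddH u z) (ddH v z) =
      ⟪lapH w u z, lapH w v z⟫_ℝ - hhH w u v z := by
  obtain ⟨m, e, he⟩ := exists_good u z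
  rw [BB_comp _ (fun a b y => he.d2 a b y), he.lap w hu hv, he.hh w hu hv,
    ← Finset.sum_sub_distrib]
  refine Finset.sum_congr rfl fun i _ => ?_
  rw [← cHess_Xm hu, ← cHess_Xm hv]
  have h1 := H66.trace_real hw.isHermitian (C2.cHess_isHermitian (cmp_contDiffAt hu (e i)))
  have h2 := H66.trace_real hw.isHermitian (C2.cHess_isHermitian (cmp_contDiffAt hv (e i)))
  unfold qq lap hh
  rw [Complex.sub_re, ← h1, ← h2, Complex.re_ofReal_mul]
  simp

end loc

section glob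
variable {n : ℕ} {Γ : Type} [Group Γ] {C : Coc n Γ} {H : Type} [NormedAddCommGroup H]
  [InnerProductSpace ℝ H] {π : Γ →* (H ≃ₗᵢ[ℝ] H)} {b b' : Γ → H} {u v : Γ → C.I → Cm n → H}

/-- the density, cut off by a function on the base -/
def qdH (K : KM C) (χ : C.I → Cm n → ℝ) (u v : Γ → C.I → Cm n → H) (a : C.I) (z : Cm n) : ℝ :=
  BB (K.w a z)⁻¹ (xx (χ a) (u 1 a) z) (ddH (v 1 a) z)

theorem qdH_BD (K : KM C) {χ : C.I → Cm n → ℝ} (hχ : ∀ a, ∀ z ∈ C.Ω a, ContDiffAt ℝ ∞ (χ a) z)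
    (hχc : ∀ a d, ∀ z ∈ C.O a d, χ a z = χ d (C.T a d z)) (hu : Sec C π b u)
    (hv : Sec C π b' v) : BD C (qdH K χ u v) where
  cont a z hz := (BB_smooth (K.ku a) hz (hχ a z hz) (hu.smooth 1 a z hz)
    (hv.smooth 1 a z hz)).continuousAt.continuousWithinAt
  compat a d z hz _ _ := by
    have hzΩ := O_sub_Ω C hz
    have hT := T_mem_Ω C hz
    refine BB_change (T := C.T a d) (A := π (C.κ a d z)) (c := b (C.κ a d z))
      (c' := b' (C.κ a d z)) (T_ev C hz) (hu.smooth 1 a z hzΩ) (hu.smooth 1 d _ hT)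
      (hv.smooth 1 a z hzΩ) (hv.smooth 1 d _ hT) (hχ a z hzΩ) (hχ d _ hT) (sec_near1 hu hz)
      (sec_near1 hv hz) ?_ ?_
    · filter_upwards [(C.O_open a d).mem_nhds hz] with y hy using hχc a d y hy
    · exact g_change K hz

theorem int_qd (P : PU C) (K : KM C) (hu : Sec C π b u) (hv : Sec C π b' v) (d : C.I) :
    BInt P K (qdH K (P.χ d) u v) = 0 := by
  rw [(qdH_BD K (P.smooth d) (fun a e z hz => P.compat d a e z hz) hu hv).piece P K d]
  · set X : Cm n → ℝ := (C.Ω d).indicator (P.χ d d) with hX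
    have hXev : ∀ z ∈ C.Ω d, X =ᶠ[𝓝 z] P.χ d d := by
      intro z hz
      filter_upwards [(isOpen_Ω C d).mem_nhds hz] with y hy
      exact indicator_of_mem hy _
    have h1 := loc_int (U := C.V d) (KU_V K d) (χ := X) (u := u 1 d) (v := v 1 d)
      (fun z hz => (P.smooth d d z (V_sub_Ω C d hz)).congr_of_eventuallyEq
        (hXev z (V_sub_Ω C d hz)))
      (fun z hz => hu.smooth 1 d z (V_sub_Ω C d hz))
      (fun z hz => hv.smooth 1 d z (V_sub_Ω C d hz)) (P.compactK d) (P.K_sub d) ?_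
    · rw [← h1]
      refine setIntegral_congr_fun measurableSet_ball fun z hz => ?_
      simp only [qdH]
      rw [xx_congr (hXev z (V_sub_Ω C d hz))]
    · intro z hz
      by_cases hz' : z ∈ C.Ω d
      · rw [hX, indicator_of_mem hz']
        by_contra h0
        have h2 := (P.supp d d z hz' h0).2
        rw [C.T_self d z (mem_O_self C hz')] at h2
        exact hz h2
      · rw [hX, indicator_of_notMem hz']
  · intro a z hz hne
    by_contra hn
    have hn' : ¬ (z ∈ C.O a d ∧ C.T a d z ∈ P.K d) := fun h => hn ⟨h.1, P.K_sub d h.2⟩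
    apply hne
    have e := chi_ev P d (V_sub_Ω C a hz) hn'
    rw [qdH, xx_zero e, BB_zero]

theorem sum_xx (P : PU C) {a : C.I} {z : Cm n} (hz : z ∈ C.Ω a) (f : Cm n → H) :
    (fun p q => ∑ d, xx (P.χ d a) f z p q) = ddH f z := by
  funext p q
  unfold xx
  rw [Finset.sum_add_distrib, ← Finset.sum_smul, ← Finset.sum_smul, P.sum_one a z hz, one_smul]
  have h1 : ∑ d, dH (P.χ d a) z p = 0 := by
    unfold dH
    have h2 : fderiv ℝ (fun y => ∑ d, P.χ d a y) z = ∑ d, fderiv ℝ (P.χ d a) z :=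
      fderiv_fun_sum fun d _ => (P.smooth d a z hz).differentiableAt (by simp)
    have h3 : (fun y => ∑ d, P.χ d a y) =ᶠ[𝓝 z] fun _ => (1 : ℝ) := by
      filter_upwards [(isOpen_Ω C a).mem_nhds hz] with y hy
      exact P.sum_one a y hy
    rw [h3.fderiv_eq, fderiv_fun_const] at h2
    have h4 := congrArg (fun L : Cm n →L[ℝ] ℝ => L (ev p)) h2
    simp only [_root_.sum_apply] at h4
    rw [← h4]
    rfl
  rw [h1, zero_smul, add_zero]

/-- the global identity -/
theorem kahler0 (P : PU C) (K : KM C) (hu : Sec C π b u) (hv : Sec C π b' v) :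
    BInt P K (fun a z => BB (K.w a z)⁻¹ (ddH (u 1 a) z) (ddH (v 1 a) z)) = 0 := by
  have h1 : ∀ a, ∀ z ∈ C.V a, BB (K.w a z)⁻¹ (ddH (u 1 a) z) (ddH (v 1 a) z) =
      ∑ d, qdH K (P.χ d) u v a z := by
    intro a z hz
    unfold qdH
    rw [← BB_sum, sum_xx P (V_sub_Ω C a hz)]
  rw [BInt_congr P K h1, BInt_sum P K Finset.univ fun d _ =>
    qdH_BD K (P.smooth d) (fun a e z hz => P.compat d a e z hz) hu hv]
  exact Finset.sum_eq_zero fun d _ => int_qd P K hu hv d

/-- **The Kähler identity** for sections with values in a Hilbert space. -/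
theorem kahler (P : PU C) (K : KM C) (hu : Sec C π b u) (hv : Sec C π b' v) :
    BInt P K (fun a z => ⟪lapH (K.w a) (u 1 a) z, lapH (K.w a) (v 1 a) z⟫_ℝ) =
      BInt P K (fun a z => hhH (K.w a) (u 1 a) (v 1 a) z) := by
  have h := kahler0 P K hu hv
  have h1 : ∀ a, ∀ z ∈ C.V a, BB (K.w a z)⁻¹ (ddH (u 1 a) z) (ddH (v 1 a) z) =
      ⟪lapH (K.w a) (u 1 a) z, lapH (K.w a) (v 1 a) z⟫_ℝ +
        -hhH (K.w a) (u 1 a) (v 1 a) z := by
    intro a z hz
    have hz' := V_sub_Ω C a hz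
    rw [BB_eq ((K.ku a).pos z hz') ((hu.smooth 1 a z hz').of_le H639.V.two_le)
      ((hv.smooth 1 a z hz').of_le H639.V.two_le), sub_eq_add_neg]
  have hc1 : ∀ a, ContinuousOn (fun z => ⟪lapH (K.w a) (u 1 a) z, lapH (K.w a) (v 1 a) z⟫_ℝ)
      (C.Ω a) := fun a z hz =>
    ((lapH_smooth (K.ku a) hz (hu.smooth 1 a z hz)).inner ℝ
      (lapH_smooth (K.ku a) hz (hv.smooth 1 a z hz))).continuousAt.continuousWithinAt
  have hc2 : ∀ a, ContinuousOn (fun z => -hhH (K.w a) (u 1 a) (v 1 a) z) (C.Ω a) := fun a z hz =>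
    (hhH_smooth (K.ku a) hz (hu.smooth 1 a z hz)
      (hv.smooth 1 a z hz)).neg.continuousAt.continuousWithinAt
  rw [BInt_congr P K h1, BInt_add' P K hc1 hc2] at h
  have h3 : BInt P K (fun a z => -hhH (K.w a) (u 1 a) (v 1 a) z) =
      -BInt P K (fun a z => hhH (K.w a) (u 1 a) (v 1 a) z) := by
    have := BInt_smul P K (-1) (fun a z => hhH (K.w a) (u 1 a) (v 1 a) z)
    simpa using this
  rw [h3] at h
  linarith

end glob

/-- **T2** (literal of SpecT). -/
theorem t2Stmt : H409.T.T2Stmt := by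
  intro n Γ _ C P K H _ _ _ π b u hu
  refine ⟨fun v hv => ibp P K hu hv, ?_⟩
  rw [← kahler P K hu hu]
  refine le_of_eq (BInt_congr P K fun a z _ => ?_)
  exact real_inner_self_eq_norm_sq _

end Vale.Agent.P284.H119.T
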