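import Vale.Agent.P284.H894.V.Spec
import Vale.Agent.P272.K.INT.Local

/-! P284 theorem V, block V1: integration by parts in `ℂⁿ`. -/

open scoped ContDiff ComplexOrder ComplexConjugate Topology
open MeasureTheory Set Filter

noncomputable section

namespace Vale.Agent.P284.H119.V

open Vale.Agent.P272.K Vale.Agent.P272.K.INT Vale.Agent.P284.H894.V

variable {n : ℕ} {U : Set (Cm n)}

/-- the divergence theorem (Piola) for a closed matrix function and a compactly supported field -/
theorem int_div {b : Cm n → Matrix (Fin n) (Fin n) ℂ} {a : Cm n → Fin n → ℂ} {K : Set (Cm n)}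
    (hU : IsOpen U) (hb : ∀ z ∈ U, ∀ i j, ContDiffAt ℝ ∞ (fun y => b y i j) z)
    (hcl : ∀ z ∈ U, ∀ i k l, dz i (fun y => b y k l) z = dz k (fun y => b y i l) z)
    (ha : ∀ z ∈ U, ∀ l, ContDiffAt ℝ ∞ (fun y => a y l) z)
    (hK : IsCompact K) (hKU : K ⊆ U) (hout : ∀ z ∉ K, a z = 0) :
    IntegrableOn (fun z => ∑ r, ((b z).updateRow r (fun l => dz r (fun y => a y l) z)).det) U ∧
    ∫ z in U, ∑ r, ((b z).updateRow r (fun l => dz r (fun y => a y l) z)).det = 0 := by
  set F : Fin n → Cm n → ℂ := fun r z => ((b z).updateRow r (a z)).det with hF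
  have hF0 : ∀ r z, z ∉ K → F r z = 0 := by
    intro r z hz
    refine Matrix.det_eq_zero_of_row_eq_zero r fun l => ?_
    rw [Matrix.updateRow_self, hout z hz]; rfl
  have hFs : ∀ r, HasCompactSupport (F r) := fun r =>
    HasCompactSupport.intro hK (fun z hz => hF0 r z hz)
  have hFt : ∀ r z, z ∉ K → F r =ᶠ[𝓝 z] fun _ => 0 := by
    intro r z hz
    filter_upwards [hK.isClosed.isOpen_compl.mem_nhds hz] with y hy
    exact hF0 r y hy
  have hFc : ∀ r, ContDiff ℝ 1 (F r) := by
    intro r
    rw [contDiff_iff_contDiffAt]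
    intro z
    by_cases hz : z ∈ K
    · refine (contDiffAt_det (k := ∞) fun i j => ?_).of_le (by exact_mod_cast le_top)
      by_cases h : i = r
      · subst h
        simp only [Matrix.updateRow_self]
        exact ha z (hKU hz) j
      · simp only [Matrix.updateRow_ne h]
        exact hb z (hKU hz) i j
    · exact contDiffAt_const.congr_of_eventuallyEq (hFt r z hz)
  have key : ∀ z ∈ U, ∑ r, ((b z).updateRow r (fun l => dz r (fun y => a y l) z)).det =
      ∑ r, dz r (F r) z := by
    intro z hz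
    have := piola (M := b) (a := a) (z := z)
      (fun i j => (hb z hz i j).differentiableAt (by simp))
      (fun l => (ha z hz l).differentiableAt (by simp))
      (fun i k l => hcl z hz i k l)
    rw [← this]
  have hcomp : ∀ z, z ∉ U → ∑ r, dz r (F r) z = 0 := by
    intro z hz
    refine Finset.sum_eq_zero fun r _ => ?_
    rw [INT.dz_congr (hFt r z (fun h => hz (hKU h)))]; simp
  have hint : ∀ r, Integrable (fun z => dz r (F r) z) := by
    intro r
    have h1 : Continuous (dz r (F r)) := by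
      rw [dz_fun_eq]
      have := (hFc r).continuous_fderiv (by norm_num)
      exact continuous_const.mul ((this.clm_apply continuous_const).sub
        (continuous_const.mul (this.clm_apply continuous_const)))
    refine h1.integrable_of_hasCompactSupport (HasCompactSupport.intro hK fun z hz => ?_)
    rw [INT.dz_congr (hFt r z hz)]; simp
  have hsum : Integrable (fun z => ∑ r, dz r (F r) z) := integrable_finsetSum _ fun r _ => hint r
  refine ⟨(hsum.integrableOn (s := U)).congr_fun (fun z hz => (key z hz).symm) hU.measurableSet, ?_⟩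
  have e1 : ∫ z in U, ∑ r, ((b z).updateRow r (fun l => dz r (fun y => a y l) z)).det
      = ∫ z in U, ∑ r, dz r (F r) z :=
    setIntegral_congr_fun hU.measurableSet fun z hz => by simp only [key z hz]
  have e2 : ∫ z in U, ∑ r, dz r (F r) z = ∫ z, ∑ r, dz r (F r) z := by
    apply setIntegral_eq_integral_of_forall_compl_eq_zero
    intro z hz; exact hcomp z hz
  rw [e1, e2, integral_finsetSum _ fun r _ => hint r]
  simp [fun r => integral_dz_eq_zero (hFc r) (hFs r) r]

lemma det_row (W : Matrix (Fin n) (Fin n) ℂ) (r : Fin n) (v : Fin n → ℂ) :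
    (W.updateRow r v).det = ∑ l, v l * W.adjugate l r := by
  rw [Matrix.det_eq_sum_mul_adjugate_row (W.updateRow r v) r]
  refine Finset.sum_congr rfl fun l _ => ?_
  rw [Matrix.updateRow_self, Matrix.adjugate_apply, Matrix.adjugate_apply, Matrix.updateRow_idem]

lemma adj_eq {W : Matrix (Fin n) (Fin n) ℂ} (hW : W.det ≠ 0) :
    W.adjugate = W.det • W⁻¹ := by
  rw [Matrix.inv_def, smul_smul, Ring.mul_inverse_cancel _ (isUnit_iff_ne_zero.2 hW), one_smul]

lemma det_pos_re {W : Matrix (Fin n) (Fin n) ℂ} (hW : W.PosDef) :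
    W.det ≠ 0 ∧ (W.det.re : ℂ) = W.det := by
  have h := hW.det_pos
  refine ⟨h.ne', ?_⟩
  have h2 := (Complex.lt_def.1 h).2
  apply Complex.ext <;> simp [← h2]

/-- gr is symmetric -/
lemma gr_symm {w : Cm n → Matrix (Fin n) (Fin n) ℂ} {z : Cm n} (hw : (w z).PosDef)
    (f h : Cm n → ℝ) : gr w f h z = gr w h f z := by
  unfold gr
  have hh : ((w z)⁻¹).IsHermitian := hw.isHermitian.inv
  have e : ∀ (F : Cm n → ℝ) (j : Fin n), dzb j (fun y => (F y : ℂ)) z =
      conj (dz j (fun y => (F y : ℂ)) z) := by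
    intro F j
    rw [← dzb_conj]; simp
  rw [← Complex.conj_re, Finset.sum_comm]
  congr 1
  rw [map_sum]
  refine Finset.sum_congr rfl fun k _ => ?_
  rw [map_sum]
  refine Finset.sum_congr rfl fun j _ => ?_
  rw [map_mul, map_mul, e h, e f, Complex.conj_conj]
  have : conj ((w z)⁻¹ k j) = (w z)⁻¹ j k := by
    have := congrFun (congrFun hh j) k
    rw [Matrix.conjTranspose_apply] at this
    exact this
  rw [this]; ring

/-- pointwise identity: `∑ r det (w; row r := ∂_r (h ∂̄f)) = (h tr (w⁻¹ ∂∂̄f) + ⟨∂h, ∂f⟩) det w`. -/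
lemma pt {w : Cm n → Matrix (Fin n) (Fin n) ℂ} {z : Cm n} (hw : (w z).PosDef)
    {f h : Cm n → ℝ} (hf : ContDiffAt ℝ ∞ f z) (hh : ContDiffAt ℝ ∞ h z) :
    (∑ r, ((w z).updateRow r (fun l => dz r (fun y => (h y : ℂ) * dzb l (fun x => (f x : ℂ)) y) z)).det).re
      = lap w f z * h z * vol w z + gr w h f z * vol w z := by
  obtain ⟨hd, hre⟩ := det_pos_re hw
  have h1 : ∀ r l, dz r (fun y => (h y : ℂ) * dzb l (fun x => (f x : ℂ)) y) z =
      dz r (fun y => (h y : ℂ)) z * dzb l (fun x => (f x : ℂ)) z + (h z : ℂ) * cHess f z r l := by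
    intro r l
    rw [INT.dz_mul ((INT.ofReal_contDiffAt hh).differentiableAt (by simp))
      ((smooth_dzb (INT.ofReal_contDiffAt hf)).differentiableAt (by simp)), INT.cHess_apply]
  simp only [h1, det_row, adj_eq hd, Matrix.smul_apply, smul_eq_mul]
  have h2 : ∑ r, ∑ l, (dz r (fun y => (h y : ℂ)) z * dzb l (fun x => (f x : ℂ)) z +
      (h z : ℂ) * cHess f z r l) * ((w z).det * (w z)⁻¹ l r) =
      (h z : ℂ) * ((w z)⁻¹ * cHess f z).trace * ((w z).det.re : ℂ) +
      (∑ j, ∑ k, (w z)⁻¹ k j * dz j (fun y => (h y : ℂ)) z * dzb k (fun y => (f y : ℂ)) z) *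
        ((w z).det.re : ℂ) := by
    rw [hre, Matrix.trace]
    simp only [Matrix.diag_apply, Matrix.mul_apply]
    rw [Finset.sum_comm (f := fun l r => (w z)⁻¹ l r * cHess f z r l)]
    rw [Finset.mul_sum, Finset.sum_mul, Finset.sum_mul, ← Finset.sum_add_distrib]
    refine Finset.sum_congr rfl fun r _ => ?_
    rw [Finset.mul_sum, Finset.sum_mul, Finset.sum_mul, ← Finset.sum_add_distrib]
    refine Finset.sum_congr rfl fun l _ => ?_
    ring
  rw [h2, Complex.add_re, Complex.re_mul_ofReal, Complex.re_mul_ofReal, Complex.re_ofReal_mul]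
  unfold lap gr vol
  ring

/-- integrability of `(Δf) h dvol` -/
lemma int_lap {w : Cm n → Matrix (Fin n) (Fin n) ℂ} (hw : KU U w) {f h : Cm n → ℝ} {K : Set (Cm n)}
    (hf : ∀ z ∈ U, ContDiffAt ℝ ∞ f z) (hh : ∀ z ∈ U, ContDiffAt ℝ ∞ h z)
    (hK : IsCompact K) (hKU : K ⊆ U) (hout : ∀ z ∈ U, z ∉ K → (h z : ℂ) • cHess f z = 0) :
    IntegrableOn (fun z => lap w f z * h z * vol w z) U := by
  have h0 : ∀ z ∈ U, lap w f z * h z * vol w z =
      (∑ r, ((w z).updateRow r (fun l => (h z : ℂ) * cHess f z r l)).det).re := by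
    intro z hz
    obtain ⟨hd, hre⟩ := det_pos_re (hw.pos z hz)
    simp only [det_row, adj_eq hd, Matrix.smul_apply, smul_eq_mul]
    have h2 : ∑ r, ∑ l, ((h z : ℂ) * cHess f z r l) * ((w z).det * (w z)⁻¹ l r) =
        (h z : ℂ) * ((w z)⁻¹ * cHess f z).trace * ((w z).det.re : ℂ) := by
      rw [hre, Matrix.trace]
      simp only [Matrix.diag_apply, Matrix.mul_apply]
      rw [Finset.sum_comm (f := fun l r => (w z)⁻¹ l r * cHess f z r l)]
      rw [Finset.mul_sum, Finset.sum_mul]
      refine Finset.sum_congr rfl fun r _ => ?_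
      rw [Finset.mul_sum, Finset.sum_mul]
      refine Finset.sum_congr rfl fun l _ => ?_
      ring
    rw [h2, Complex.re_mul_ofReal, Complex.re_ofReal_mul]
    unfold lap vol
    ring
  have h1 : ContinuousOn (fun z => lap w f z * h z * vol w z) U := by
    refine ContinuousOn.congr ?_ h0
    intro z hz
    refine ContinuousAt.continuousWithinAt ?_
    refine Complex.continuous_re.continuousAt.comp ?_
    refine tendsto_finsetSum _ fun r _ => ?_
    refine ContDiffAt.continuousAt (contDiffAt_det (k := ∞) fun i j => ?_)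
    by_cases h : i = r
    · subst h
      simp only [Matrix.updateRow_self]
      exact (INT.ofReal_contDiffAt (hh z hz)).mul (smooth_cHess (hf z hz) _ _)
    · simp only [Matrix.updateRow_ne h]
      exact hw.smooth z hz i j
  refine ((h1.mono hKU).integrableOn_compact hK).of_forall_sdiff_eq_zero
    hw.isOpen.measurableSet fun z hz => ?_
  rw [h0 z hz.1]
  have h3 := hout z hz.1 hz.2
  have : ∀ r, ((w z).updateRow r (fun l => (h z : ℂ) * cHess f z r l)).det = 0 := by
    intro r
    refine Matrix.det_eq_zero_of_row_eq_zero r fun l => ?_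
    rw [Matrix.updateRow_self]
    exact congrFun (congrFun h3 r) l
  simp [this]

/-- the divergence theorem in the form `∫ (Δf) h + ⟨∂h, ∂f⟩ = 0` -/
lemma main {w : Cm n → Matrix (Fin n) (Fin n) ℂ} (hw : KU U w) {f h : Cm n → ℝ} {K : Set (Cm n)}
    (hf : ∀ z ∈ U, ContDiffAt ℝ ∞ f z) (hh : ∀ z ∈ U, ContDiffAt ℝ ∞ h z)
    (hK : IsCompact K) (hKU : K ⊆ U) (hout : ∀ z ∈ U, z ∉ K → (h z : ℂ) • cHess f z = 0)
    (hout2 : ∀ z ∉ K, ∀ l, (h z : ℂ) * dzb l (fun x => (f x : ℂ)) z = 0) :
    IntegrableOn (fun z => gr w h f z * vol w z) U ∧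
    ∫ z in U, lap w f z * h z * vol w z = -∫ z in U, gr w h f z * vol w z := by
  obtain ⟨i1, i2⟩ := int_div (b := w) (a := fun y l => (h y : ℂ) * dzb l (fun x => (f x : ℂ)) y)
    (K := K) hw.isOpen hw.smooth (fun z hz i k l => hw.closed z hz k l i)
    (fun z hz l => (INT.ofReal_contDiffAt (hh z hz)).mul
      (smooth_dzb (INT.ofReal_contDiffAt (hf z hz)))) hK hKU (fun z hz => funext fun l => hout2 z hz l)
  have hA := int_lap hw hf hh hK hKU hout
  have i3 : IntegrableOn (fun z => lap w f z * h z * vol w z + gr w h f z * vol w z) U :=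
    IntegrableOn.congr_fun (show IntegrableOn (fun z => (∑ r, ((w z).updateRow r (fun l => dz r
      (fun y => (h y : ℂ) * dzb l (fun x => (f x : ℂ)) y) z)).det).re) U volume from i1.re)
      (fun z hz => pt (hw.pos z hz) (hf z hz) (hh z hz)) hw.isOpen.measurableSet
  have hB : IntegrableOn (fun z => gr w h f z * vol w z) U := by
    have := i3.sub hA
    refine this.congr_fun (fun z _ => ?_) hw.isOpen.measurableSet
    simp
  refine ⟨hB, ?_⟩
  have i4 : ∫ z in U, (lap w f z * h z * vol w z + gr w h f z * vol w z) = 0 := by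
    rw [← setIntegral_congr_fun hw.isOpen.measurableSet
      (fun z hz => pt (hw.pos z hz) (hf z hz) (hh z hz))]
    have := Complex.reCLM.integral_comp_comm i1
    rw [i2] at this
    simpa using this
  rw [integral_add hA hB] at i4
  linarith

theorem v1Stmt : V1Stmt := by
  intro n U w hw f h hf hh
  have hfs : ∀ z ∈ U, ContDiffAt ℝ ∞ f z := fun z _ => hf.smooth.contDiffAt
  have h1 := main hw hfs hh hf.compact hf.supp
    (fun z _ hz => by rw [cHess_zero_of_notMem hz, smul_zero])
    (fun z hz l => by rw [dzb_zero_of_notMem hz, mul_zero])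
  have hf0 : ∀ z ∉ tsupport f, (f z : ℂ) = 0 := fun z hz => by
    rw [image_eq_zero_of_notMem_tsupport hz]; simp
  have h2 := main hw hh hfs hf.compact hf.supp
    (fun z _ hz => by rw [hf0 z hz, zero_smul])
    (fun z hz l => by rw [hf0 z hz, zero_mul])
  refine ⟨?_, h2.2⟩
  rw [h1.2]
  congr 1
  exact setIntegral_congr_fun hw.isOpen.measurableSet fun z hz => by
    simp only [gr_symm (hw.pos z hz) f h]

end Vale.Agent.P284.H119.V
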